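import Vale.Agent.P235.H536.Round
import Vale.Agent.P235.H873.OS

/-!
# One round which removes a crossless list
-/

namespace Vale.Agent.P235.H536

open Finset

theorem pointed_embeds {K : ℝ} (hK : 0 < K) {V : Type} [Finite V] {G : SimpleGraph V}
    {ℓ : Sym2 V → ℝ} (hc : G.Connected) (hℓ : ∀ e ∈ G.edgeSet, 0 < ℓ e)
    (h : ∀ H : V → ℝ, (∀ v, 0 < H v) → (∀ u v, G.Adj u v → |H u - H v| ≤ ℓ s(u, v)) →
      Pointed G ℓ H K) :
    EmbedsL1 (pathDist G ℓ) (16000 * K) := by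
  have := Fintype.ofFinite V
  have hd := pathDist_isMet hc hℓ
  obtain ⟨R, hR0, hR⟩ : ∃ R : ℝ, 0 < R ∧ ∀ x y, pathDist G ℓ x y ≤ R := by
    refine ⟨∑ x, ∑ y, pathDist G ℓ x y + 1, ?_, ?_⟩
    · have : 0 ≤ ∑ x, ∑ y, pathDist G ℓ x y :=
        Finset.sum_nonneg fun x _ => Finset.sum_nonneg fun y _ => hd.nonneg x y
      linarith
    intro x y
    have e1 : pathDist G ℓ x y ≤ ∑ y, pathDist G ℓ x y :=
      Finset.single_le_sum (f := fun y => pathDist G ℓ x y) (fun y _ => hd.nonneg x y)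
        (Finset.mem_univ y)
    have e2 : ∑ y, pathDist G ℓ x y ≤ ∑ x, ∑ y, pathDist G ℓ x y :=
      Finset.single_le_sum (f := fun x => ∑ y, pathDist G ℓ x y)
        (fun x _ => Finset.sum_nonneg fun y _ => hd.nonneg x y) (Finset.mem_univ x)
    linarith
  obtain ⟨σ, h1, h2, -, -, h5⟩ := h (fun _ => R)
    (fun _ => hR0) (fun u v huv => by
      rw [sub_self, abs_zero]; exact (hℓ _ huv).le)
  have hI := (h1.comap (some : V → Option V)).smul (by norm_num : (0 : ℝ) ≤ 16000)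
  refine hI.embeds (fun x y => ?_) (fun x y => ?_)
  · have h6 := h5 x y (pathDist G ℓ x y / 8) (by linarith [hR x y, hd.nonneg x y])
      (by linarith [hR x y, hd.nonneg x y]) (by linarith)
    show pathDist G ℓ x y ≤ 16000 * σ (some x) (some y)
    linarith
  · have h6 := pathDist_semi (G := G) (ℓ := ℓ) (ρ := fun x y => σ (some x) (some y)) hc hK
      (fun x => h1.self _) (fun x y z => h1.tri _ _ _) h2 x y
    show 16000 * σ (some x) (some y) ≤ _
    rw [mul_assoc]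
    exact mul_le_mul_of_nonneg_left h6 (by norm_num)

/-- one round which removes a crossless list -/
theorem pointed_step_face {V : Type} [Finite V] {G : SimpleGraph V} {ℓ : Sym2 V → ℝ}
    (hc : G.Connected) (hℓ : ∀ e ∈ G.edgeSet, 0 < ℓ e) {H : V → ℝ} (hH : ∀ v, 0 < H v)
    (hHl : ∀ u v, G.Adj u v → |H u - H v| ≤ ℓ s(u, v)) {n : ℕ} {x : Fin n → V} (hn : 0 < n)
    (hx : Crossless G x) {K : ℝ} (hK : 0 ≤ K)
    (ih : ∀ u ∉ Set.range x, ∀ H' : compSet G (Set.range x) u → ℝ, (∀ v, 0 < H' v) →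
      (∀ a b, (G.induce (compSet G (Set.range x) u)).Adj a b → |H' a - H' b| ≤ ℓ s(a.1, b.1)) →
      Pointed (G.induce (compSet G (Set.range x) u)) (fun e => ℓ (e.map Subtype.val)) H' K) :
    Pointed G ℓ H (K + 2) := by
  obtain ⟨F, hF, hF1, hF2⟩ := os_map hc hℓ hx
  refine pointed_step_set hc hℓ hH hHl ⟨x ⟨0, hn⟩, Set.mem_range_self _⟩ hF
    (fun u v huv => (hF1 u v).trans (pathDist_adj hℓ huv)) ?_ hK ih
  rintro _ ⟨i, rfl⟩ _ ⟨j, rfl⟩
  exact hF2 i j

theorem distortion_face {C : ℝ} (hC : 1 ≤ C) {V : Type} [Finite V] {G : SimpleGraph V}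
    (hc : G.Connected) {n : ℕ} {x : Fin n → V} (hn : 0 < n) (hx : Crossless G x)
    (h : ∀ u ∉ Set.range x, DistortionLE (G.induce (compSet G (Set.range x) u)) C) :
    DistortionLE G (3400000 * C) := by
  intro ℓ hℓ
  have hd := pathDist_isMet hc hℓ
  have hC0 : 0 < C := by linarith
  obtain ⟨Ω, m, μ, f, hf⟩ := pointed_embeds (K := (96 * C + 112) + 2) (by positivity) hc hℓ
    (fun H hH hHl => pointed_step_face hc hℓ hH hHl hn hx (by positivity)
      fun u hu H' hH' hHl' => pointed_leaf hC0 (comp_connected hu) (induce_pos hℓ _) hH' hHl'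
        (h u hu))
  refine ⟨Ω, m, μ, f, fun x y => ⟨(hf x y).1, (hf x y).2.trans
    (mul_le_mul_of_nonneg_right ?_ (hd.nonneg x y))⟩⟩
  linarith

end Vale.Agent.P235.H536
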