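import Vale.Agent.P235.H536.Round
import Vale.Agent.P235.H873.LineApex

/-!
# Rounds which remove a set near which an `L₁` map is expanding; at most `t` vertices
-/

namespace Vale.Agent.P235.H536

open Finset

section step

variable {V : Type} {G : SimpleGraph V} {ℓ : Sym2 V → ℝ}

/-- the localised map separates all pairs one of which is close to the set -/
theorem set_separate' [Finite V] (hc : G.Connected) (hℓ : ∀ e ∈ G.edgeSet, 0 < ℓ e) {H : V → ℝ}
    {P : Set V} {F : V → V → ℝ} {L : ℝ} (hL : 1 ≤ L) {ν : V → V}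
    (hFX : ∀ x y δ, 0 < δ → pathDist G ℓ x (ν x) ≤ δ → pathDist G ℓ y (ν y) ≤ 2 * δ →
      8 * δ ≤ pathDist G ℓ x y → 2 * δ ≤ L * F x y)
    (hν : Near G ℓ P ν) {x y z : V} {δ S1 S2 : ℝ} (hδ : 0 < δ)
    (hx : δ ≤ H x) (hy : δ ≤ H y) (hxy : 8 * δ ≤ pathDist G ℓ x y) (hz : z ∈ P)
    (hxz : pathDist G ℓ x z < δ)
    (h1 : 1 / 2000 * min (F x y) (H x + H y) ≤ S1 / L)
    (h2 : 1 / 2000 * min |pathDist G ℓ x (ν x) - pathDist G ℓ y (ν y)| (H x + H y) ≤ S2)
    (hS1 : 0 ≤ S1) (hS2 : 0 ≤ S2) : δ ≤ 2000 * (S1 + S2) := by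
  have hd := pathDist_isMet hc hℓ
  have hsx : pathDist G ℓ x (ν x) < δ := (hν.le x z hz).trans_lt hxz
  have hsx0 := hd.nonneg x (ν x)
  by_cases hcase : δ ≤ |pathDist G ℓ x (ν x) - pathDist G ℓ y (ν y)|
  · have h3 : δ ≤ min |pathDist G ℓ x (ν x) - pathDist G ℓ y (ν y)| (H x + H y) :=
      le_min hcase (by linarith)
    linarith
  · push Not at hcase
    have h3 := (abs_lt.1 hcase).1
    have hsy : pathDist G ℓ y (ν y) < 2 * δ := by linarith
    have h4 : 2 * δ ≤ L * F x y := hFX x y δ hδ hsx.le hsy.le hxy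
    have hL0 : 0 < L := by linarith
    have h5 : 2 * δ ≤ L * min (F x y) (H x + H y) := by
      rcases min_cases (F x y) (H x + H y) with ⟨e, -⟩ | ⟨e, -⟩
      · rw [e]; exact h4
      · rw [e]; nlinarith
    have h6 : 1 / 2000 * (L * min (F x y) (H x + H y)) ≤ S1 := by
      have := mul_le_mul_of_nonneg_left h1 hL0.le
      rw [mul_div_cancel₀ _ hL0.ne'] at this
      linarith
    linarith

/-- one round which removes a nonempty set `P` such that some `L₁` map of the whole graph
separates the pairs close to `P` -/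
theorem pointed_step_gen [Finite V] (hc : G.Connected) (hℓ : ∀ e ∈ G.edgeSet, 0 < ℓ e) {H : V → ℝ}
    (hH : ∀ v, 0 < H v) (hHl : ∀ u v, G.Adj u v → |H u - H v| ≤ ℓ s(u, v)) {P : Set V}
    (hP : P.Nonempty) {F : V → V → ℝ} (hF : IsL1 F) (hFl : ∀ u v, G.Adj u v → F u v ≤ ℓ s(u, v))
    {L : ℝ} (hL : 1 ≤ L)
    (hFX : ∀ ν : V → V, Near G ℓ P ν → ∀ x y δ, 0 < δ → pathDist G ℓ x (ν x) ≤ δ →
      pathDist G ℓ y (ν y) ≤ 2 * δ → 8 * δ ≤ pathDist G ℓ x y → 2 * δ ≤ L * F x y)
    {K : ℝ} (hK : 0 ≤ K)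
    (ih : ∀ u ∉ P, ∀ H' : compSet G P u → ℝ, (∀ v, 0 < H' v) →
      (∀ a b, (G.induce (compSet G P u)).Adj a b → |H' a - H' b| ≤ ℓ s(a.1, b.1)) →
      Pointed (G.induce (compSet G P u)) (fun e => ℓ (e.map Subtype.val)) H' K) :
    Pointed G ℓ H (K + (L + 1)) := by
  classical
  have := Fintype.ofFinite V
  have hd := pathDist_isMet hc hℓ
  obtain ⟨φ, hφ0, hφH, hφP, hφpos, hφl, hφn⟩ := exists_barrier hℓ hH hHl P
  obtain ⟨ν, hν⟩ := exists_near (X := P) hc hℓ hP
  have hH0 : ∀ v, 0 ≤ H v := fun v => (hH v).le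
  have hL0 : 0 < L := by linarith
  obtain ⟨G0, hG0, hm1, hb1, hb1', hl1⟩ := fanL1 hF hH
  obtain ⟨G1, hG1e⟩ : ∃ G1 : Option V → Option V → ℝ, G1 = fun a b => L * G0 a b := ⟨_, rfl⟩
  have hG1 : IsL1 G1 := by rw [hG1e]; exact hG0.smul hL0.le
  obtain ⟨ι2, _, w2, g2, hw2, hs2, hb2, hm2, hl2, -, -⟩ := fan' fan (fun _ : V => ())
    (fun v => pathDist G ℓ v (ν v)) H hH0
  -- components
  let Q := Quotient (compSetoid G P)
  have : Fintype Q := Fintype.ofFinite Q
  have hQ : ∀ c : Q, Pointed (G.induce (compSet G P c.out.1)) (fun e => ℓ (e.map Subtype.val))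
      (fun v => φ v.1) K := fun c => ih c.out.1 c.out.2 (fun v => φ v.1)
      (fun v => hφpos v.1 (ReachOff.right v.2)) (fun a b hab => hφl a.1 b.1 hab)
  choose r hrI hr1 hr2 hr3 hr4 using hQ
  have hmk : ∀ (v : V) (hv : v ∉ P), v ∈ compSet G P (⟦⟨v, hv⟩⟧ : Q).out.1 := by
    intro v hv
    exact Quotient.mk_out (s := compSetoid G P) ⟨v, hv⟩
  have huniq : ∀ (c : Q) (v : V) (hv : v ∉ P), v ∈ compSet G P c.out.1 → c = ⟦⟨v, hv⟩⟧ := by
    intro c v hv h
    have h1 : (⟦c.out⟧ : Q) = ⟦⟨v, hv⟩⟧ := Quotient.sound h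
    rwa [Quotient.out_eq] at h1
  have hrX : ∀ (c : Q) (v : V), v ∈ P → v ∉ compSet G P c.out.1 := fun c v hv h =>
    ReachOff.right h hv
  let e : ∀ c : Q, Option V → Option (compSet G P c.out.1) := fun c a =>
    a.elim none fun v => if h : v ∈ compSet G P c.out.1 then some ⟨v, h⟩ else none
  have he0 : ∀ c, e c none = none := fun c => rfl
  have he1 : ∀ c v (h : v ∈ compSet G P c.out.1), e c (some v) = some ⟨v, h⟩ := by
    intro c v h
    exact dif_pos h
  have he2 : ∀ c v, v ∉ compSet G P c.out.1 → e c (some v) = none := by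
    intro c v h
    exact dif_neg h
  let G2 : Option V → Option V → ℝ := fun a b => ∑ i, w2 i * |a.elim 0 (g2 i) - b.elim 0 (g2 i)|
  let G3 : Option V → Option V → ℝ := fun a b => ∑ c : Q, r c (e c a) (e c b)
  have hG2 : IsL1 G2 := IsL1.sum Finset.univ
    (fun i (a b : Option V) => w2 i * |a.elim 0 (g2 i) - b.elim 0 (g2 i)|)
    fun i _ => (isL1_line (fun a : Option V => a.elim 0 (g2 i))).smul (hw2 i)
  have hG3 : IsL1 G3 := IsL1.sum Finset.univ (fun c a b => r c (e c a) (e c b))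
    fun c _ => (hrI c).comap (e c)
  have hn1' : ∀ a b, 0 ≤ G1 a b := hG1.nonneg
  have hn2' : ∀ a b, 0 ≤ G2 a b := hG2.nonneg
  have hn3' : ∀ a b, 0 ≤ G3 a b := hG3.nonneg
  have hterm : ∀ (c : Q) a b, 0 ≤ r c (e c a) (e c b) := fun c a b => (hrI c).nonneg _ _
  have hsingle : ∀ (c : Q) a b, r c (e c a) (e c b) ≤ G3 a b := fun c a b =>
    Finset.single_le_sum (f := fun c => r c (e c a) (e c b)) (fun c _ => hterm c a b)
      (Finset.mem_univ c)
  refine ⟨fun a b => (G1 a b + G2 a b) + G3 a b, (hG1.add hG2).add hG3, ?_, ?_, ?_, ?_⟩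
  · -- edges
    intro u v huv
    have hl0 : 0 < ℓ s(u, v) := hℓ _ huv
    have hadj := pathDist_adj hℓ huv
    have f1 : G1 (some u) (some v) ≤ L * ℓ s(u, v) := by
      have a1 := hm1 u v
      have a2 := hFl u v huv
      have a3 := hHl u v huv
      rw [hG1e]
      exact mul_le_mul_of_nonneg_left (by linarith) hL0.le
    have f2 : G2 (some u) (some v) ≤ ℓ s(u, v) := by
      have : ∀ i ∈ Finset.univ, w2 i * |g2 i u - g2 i v| ≤ w2 i * ℓ s(u, v) := by
        intro i _
        apply mul_le_mul_of_nonneg_left _ (hw2 i)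
        refine (hm2 i u v rfl).trans (max_le ?_ (hHl u v huv))
        have a1 := hν.lip hc hℓ u v
        have a2 := hν.lip hc hℓ v u
        rw [hd.symm v u] at a2
        rw [abs_le]; constructor <;> linarith
      refine (Finset.sum_le_sum this).trans ?_
      rw [← Finset.sum_mul, hs2, one_mul]
    have hone : ∀ u v, u ∉ P → G.Adj u v → G3 (some u) (some v) ≤ K * ℓ s(u, v) := by
      intro u v hu huv
      have hsum : G3 (some u) (some v) = r ⟦⟨u, hu⟩⟧ (e _ (some u)) (e _ (some v)) := by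
        refine Finset.sum_eq_single _ (fun c _ hc => ?_) (fun h => absurd (Finset.mem_univ _) h)
        have h1 : u ∉ compSet G P c.out.1 := fun h => hc (huniq c u hu h)
        have h2 : v ∉ compSet G P c.out.1 := fun h =>
          h1 (ReachOff.trans h (ReachOff.adj (ReachOff.right h) hu huv.symm))
        rw [he2 c u h1, he2 c v h2]
        exact (hrI c).self _
      rw [hsum, he1 _ u (hmk u hu)]
      by_cases hv : v ∈ P
      · rw [he2 _ v (hrX _ v hv)]
        refine (hr2 _ _).trans (mul_le_mul_of_nonneg_left ?_ hK)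
        have h1 := hφl u v huv
        rw [hφP v hv, sub_zero] at h1
        exact (le_abs_self _).trans h1
      · have hvK : v ∈ compSet G P (⟦⟨u, hu⟩⟧ : Q).out.1 :=
          ReachOff.trans (hmk u hu) (ReachOff.adj hu hv huv)
        rw [he1 _ v hvK]
        exact hr1 _ _ _ huv
    have f3 : G3 (some u) (some v) ≤ K * ℓ s(u, v) := by
      by_cases hu : u ∈ P
      · by_cases hv : v ∈ P
        · have hz : G3 (some u) (some v) = 0 := Finset.sum_eq_zero fun c _ => by
            rw [he2 c u (hrX c u hu), he2 c v (hrX c v hv)]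
            exact (hrI c).self _
          rw [hz]
          positivity
        · rw [hG3.symm, Sym2.eq_swap]
          exact hone v u hv huv.symm
      · exact hone u v hu huv
    show G1 (some u) (some v) + G2 (some u) (some v) + G3 (some u) (some v) ≤ _
    linarith
  · -- upper bound at the base point
    intro v
    have f1 : G1 (some v) none ≤ L * H v := by
      rw [hG1e]
      exact mul_le_mul_of_nonneg_left (hb1 v) hL0.le
    have f2 : G2 (some v) none ≤ H v := by
      have : ∀ i ∈ Finset.univ, w2 i * |g2 i v - 0| ≤ w2 i * H v := by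
        intro i _
        apply mul_le_mul_of_nonneg_left _ (hw2 i)
        rw [sub_zero]; exact hb2 i v
      refine (Finset.sum_le_sum this).trans ?_
      rw [← Finset.sum_mul, hs2, one_mul]
    have f3 : G3 (some v) none ≤ K * H v := by
      by_cases hv : v ∈ P
      · have hz : G3 (some v) none = 0 := Finset.sum_eq_zero fun c _ => by
          rw [he2 c v (hrX c v hv), he0]
          exact (hrI c).self _
        rw [hz]
        exact mul_nonneg hK (hH0 v)
      · have hsum : G3 (some v) none = r ⟦⟨v, hv⟩⟧ (e _ (some v)) (e _ none) := by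
          refine Finset.sum_eq_single _ (fun c _ hc => ?_) (fun h => absurd (Finset.mem_univ _) h)
          have h1 : v ∉ compSet G P c.out.1 := fun h => hc (huniq c v hv h)
          rw [he2 c v h1, he0]
          exact (hrI c).self _
        rw [hsum, he1 _ v (hmk v hv), he0]
        exact (hr2 _ _).trans (mul_le_mul_of_nonneg_left (hφH v) hK)
    show G1 (some v) none + G2 (some v) none + G3 (some v) none ≤ _
    linarith
  · -- lower bound at the base point
    intro v
    have f1 : H v / 2000 ≤ G1 (some v) none := by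
      rw [hG1e]
      have a1 := hb1' v
      have a2 := hG0.nonneg (some v) none
      refine a1.trans ?_
      show G0 (some v) none ≤ L * G0 (some v) none
      nlinarith
    have := hn2' (some v) none
    have := hn3' (some v) none
    show H v ≤ 2000 * (G1 (some v) none + G2 (some v) none + G3 (some v) none)
    linarith
  · -- separation
    intro x y δ hx hy hxy
    show δ ≤ 2000 * (G1 (some x) (some y) + G2 (some x) (some y) + G3 (some x) (some y))
    have p1 := hn1' (some x) (some y)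
    have p2 := hn2' (some x) (some y)
    have p3 := hn3' (some x) (some y)
    rcases le_or_gt δ 0 with hδ | hδ
    · linarith
    have key : ∀ a b, δ ≤ H a → δ ≤ H b → 8 * δ ≤ pathDist G ℓ a b → φ a < δ →
        δ ≤ 2000 * (G1 (some a) (some b) + G2 (some a) (some b)) := by
      intro a b ha hb hab hφa
      obtain ⟨z, hz, hzf⟩ := hφn a (hφa.trans_le ha)
      have haz : pathDist G ℓ a z < δ := by
        have h1 := hzf (fun v => pathDist G ℓ v z) (fun u v huv => by
          have a1 := hd.tri u v z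
          have a2 := hd.tri v u z
          rw [hd.symm v u] at a2
          have a3 := pathDist_adj hℓ huv
          rw [abs_le]; constructor <;> linarith)
        rw [hd.self, sub_zero] at h1
        exact ((le_abs_self _).trans h1).trans_lt hφa
      exact set_separate' hc hℓ (F := F) hL (hFX ν hν) hν hδ ha hb hab hz haz (by
        have := hl1 a b
        have e : G1 (some a) (some b) / L = G0 (some a) (some b) := by
          rw [hG1e]
          show L * G0 (some a) (some b) / L = _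
          rw [mul_div_cancel_left₀ _ hL0.ne']
        rw [e]
        linarith) (hl2 a b rfl) (hn1' (some a) (some b)) (hn2' (some a) (some b))
    by_cases hφx : δ ≤ φ x
    · by_cases hφy : δ ≤ φ y
      · have hxP : x ∉ P := fun h => by rw [hφP x h] at hφx; linarith
        have hyP : y ∉ P := fun h => by rw [hφP y h] at hφy; linarith
        have h3 := hsingle ⟦⟨x, hxP⟩⟧ (some x) (some y)
        rw [he1 _ x (hmk x hxP)] at h3
        by_cases hyK : y ∈ compSet G P (⟦⟨x, hxP⟩⟧ : Q).out.1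
        · rw [he1 _ y hyK] at h3
          have h4 := hr4 ⟦⟨x, hxP⟩⟧ ⟨x, hmk x hxP⟩ ⟨y, hyK⟩ δ hφx hφy
            (hxy.trans (pathDist_comp_ge hc hℓ (comp_connected (⟦⟨x, hxP⟩⟧ : Q).out.2)
              ⟨x, hmk x hxP⟩ ⟨y, hyK⟩))
          linarith
        · rw [he2 _ y hyK] at h3
          have h4 := hr3 ⟦⟨x, hxP⟩⟧ ⟨x, hmk x hxP⟩
          have h5 : φ x ≤ 2000 * r ⟦⟨x, hxP⟩⟧ (some ⟨x, hmk x hxP⟩) none := h4
          linarith
      · push Not at hφy
        have h1 := key y x hy hx (by rw [hd.symm]; exact hxy) hφy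
        rw [hG1.symm, hG2.symm] at h1
        linarith
    · push Not at hφx
      have h1 := key x y hx hy hxy hφx
      linarith

theorem pointed_mono {H : V → ℝ} {K K' : ℝ} (hℓ : ∀ e ∈ G.edgeSet, 0 < ℓ e) (hH : ∀ v, 0 < H v)
    (hK : K ≤ K') (h : Pointed G ℓ H K) : Pointed G ℓ H K' := by
  obtain ⟨σ, h1, h2, h3, h4, h5⟩ := h
  exact ⟨σ, h1, fun u v huv => (h2 u v huv).trans (mul_le_mul_of_nonneg_right hK (hℓ _ huv).le),
    fun v => (h3 v).trans (mul_le_mul_of_nonneg_right hK (hH v).le), h4, h5⟩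

/-- one round which removes at most `t` vertices -/
theorem pointed_step_apex [Finite V] (hc : G.Connected) (hℓ : ∀ e ∈ G.edgeSet, 0 < ℓ e) {H : V → ℝ}
    (hH : ∀ v, 0 < H v) (hHl : ∀ u v, G.Adj u v → |H u - H v| ≤ ℓ s(u, v)) {P : Set V}
    (hP : P.Nonempty) {t : ℕ} (ht : P.ncard ≤ t) {K : ℝ} (hK : 0 ≤ K)
    (ih : ∀ u ∉ P, ∀ H' : compSet G P u → ℝ, (∀ v, 0 < H' v) →
      (∀ a b, (G.induce (compSet G P u)).Adj a b → |H' a - H' b| ≤ ℓ s(a.1, b.1)) →
      Pointed (G.induce (compSet G P u)) (fun e => ℓ (e.map Subtype.val)) H' K) :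
    Pointed G ℓ H (K + 40 * ((Nat.log 2 t + 1 : ℕ) : ℝ)) := by
  classical
  have := Fintype.ofFinite V
  have hd := pathDist_isMet hc hℓ
  obtain ⟨ν0, hν0⟩ := exists_near (X := P) hc hℓ hP
  have hPf : P.Finite := Set.toFinite P
  obtain ⟨ι, _, w, g, hw, hs, hg, hl⟩ := H873.bourgain_fam (d := pathDist G ℓ) hd.symm hd.tri
    hd.nonneg hPf.toFinset (fun u => pathDist G ℓ u (ν0 u))
    (fun u => ⟨ν0 u, hPf.mem_toFinset.2 (hν0.mem u), le_rfl⟩)
  have hcard : hPf.toFinset.card = P.ncard := (Set.ncard_eq_toFinset_card P hPf).symm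
  have hm : ((Nat.log 2 hPf.toFinset.card + 1 : ℕ) : ℝ) ≤ ((Nat.log 2 t + 1 : ℕ) : ℝ) := by
    have : Nat.log 2 hPf.toFinset.card ≤ Nat.log 2 t := Nat.log_mono_right (by rw [hcard]; exact ht)
    exact_mod_cast Nat.succ_le_succ this
  have hm1 : (1 : ℝ) ≤ ((Nat.log 2 t + 1 : ℕ) : ℝ) := by
    exact_mod_cast Nat.le_add_left 1 _
  set m : ℝ := ((Nat.log 2 t + 1 : ℕ) : ℝ) with hmdef
  let F : V → V → ℝ := fun x y => ∑ i, w i * |g i x - g i y|
  have hF : IsL1 F := IsL1.sum Finset.univ (fun i x y => w i * |g i x - g i y|)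
    fun i _ => (isL1_line (g i)).smul (hw i)
  have h := pointed_step_gen (F := F) hc hℓ hH hHl hP hF (fun u v huv => by
      have h1 : ∀ i ∈ Finset.univ, w i * |g i u - g i v| ≤ w i * ℓ s(u, v) := fun i _ =>
        mul_le_mul_of_nonneg_left ((hg i u v).trans (pathDist_adj hℓ huv)) (hw i)
      refine (Finset.sum_le_sum h1).trans ?_
      rw [← Finset.sum_mul, hs, one_mul]) (L := 12 * m) (by linarith) (by
      intro ν hν x y δ hδ hx hy hxy
      have h1 := hl x y
      have h2 : pathDist G ℓ x (ν0 x) ≤ δ := (hν0.le x (ν x) (hν.mem x)).trans hx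
      have h3 : pathDist G ℓ y (ν0 y) ≤ 2 * δ := (hν0.le y (ν y) (hν.mem y)).trans hy
      have h4 : max (pathDist G ℓ x (ν0 x)) (pathDist G ℓ y (ν0 y)) ≤ 2 * δ :=
        max_le (by linarith) h3
      have h5 : 12 * ((Nat.log 2 hPf.toFinset.card + 1 : ℕ) : ℝ) * F x y ≤ 12 * m * F x y :=
        mul_le_mul_of_nonneg_right (by linarith) (hF.nonneg x y)
      have h6 : pathDist G ℓ x y / 2 - max (pathDist G ℓ x (ν0 x)) (pathDist G ℓ y (ν0 y)) ≤
        12 * ((Nat.log 2 hPf.toFinset.card + 1 : ℕ) : ℝ) * F x y := h1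
      linarith) hK ih
  exact pointed_mono hℓ hH (by linarith) h

end step

end Vale.Agent.P235.H536
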