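import Vale.Agent.P235.H536.AllDefs
import Vale.Agent.P235.H536.Face
import Vale.Agent.P235.H536.Round2

/-!
# `k` rounds of deleting `t` vertices, a shortest path, or the boundary of a face
-/

namespace Vale.Agent.P235

open Finset H536

theorem strip_pointed {P : ∀ (V : Type), SimpleGraph V → Prop} {C : ℝ} (hC : 0 < C)
    (hP : ∀ (V : Type) [Finite V] (G : SimpleGraph V), G.Connected → P V G → DistortionLE G C)
    {t k : ℕ} {V : Type} {G : SimpleGraph V}
    {ℓ : Sym2 V → ℝ} (h : Strip P t k G ℓ) : Finite V → G.Connected →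
      (∀ e ∈ G.edgeSet, 0 < ℓ e) → ∀ H : V → ℝ, (∀ v, 0 < H v) →
      (∀ u v, G.Adj u v → |H u - H v| ≤ ℓ s(u, v)) →
      Pointed G ℓ H (96 * C + 112 + k * (40 * ((Nat.log 2 t + 1 : ℕ) : ℝ))) := by
  have hm1 : (1 : ℝ) ≤ ((Nat.log 2 t + 1 : ℕ) : ℝ) := by
    exact_mod_cast Nat.le_add_left 1 _
  set m : ℝ := ((Nat.log 2 t + 1 : ℕ) : ℝ) with hmdef
  induction h with
  | @leaf k V G ℓ hD =>
    intro _ hc hℓ H hH hHl
    refine pointed_mono hℓ hH ?_ (pointed_leaf hC hc hℓ hH hHl (hP V G hc hD))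
    have : (0 : ℝ) ≤ k * (40 * m) := by positivity
    linarith
  | @round k V G ℓ X hX hR _ ih =>
    intro hfin hc hℓ H hH hHl
    have hK : (0 : ℝ) ≤ 96 * C + 112 + k * (40 * m) := by positivity
    have e : (96 * C + 112 + k * (40 * m)) + 40 * m = 96 * C + 112 + ((k + 1 : ℕ) : ℝ) * (40 * m) := by
      push_cast; ring
    have ih' : ∀ u ∉ X, ∀ H' : compSet G X u → ℝ, (∀ v, 0 < H' v) →
        (∀ a b, (G.induce (compSet G X u)).Adj a b → |H' a - H' b| ≤ ℓ s(a.1, b.1)) →
        Pointed (G.induce (compSet G X u)) (fun e => ℓ (e.map Subtype.val)) H'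
          (96 * C + 112 + k * (40 * m)) := fun u hu H' hH' hHl' =>
      ih u hu inferInstance (comp_connected hu) (induce_pos hℓ _) H' hH' hHl'
    rw [← e]
    rcases hR with h1 | ⟨x, y, q, hq, rfl⟩ | ⟨n, x, hx, rfl⟩
    · exact pointed_step_apex hc hℓ hH hHl hX h1 hK ih'
    · exact pointed_mono hℓ hH (by linarith) (pointed_step hc hℓ hH hHl q hq hK ih')
    · have hn : 0 < n := by
        obtain ⟨_, i, _⟩ := hX
        exact i.pos
      exact pointed_mono hℓ hH (by linarith) (pointed_step_face hc hℓ hH hHl hn hx hK ih')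

theorem log_add_two (t : ℕ) : ((Nat.log 2 t + 1 : ℕ) : ℝ) ≤ 3 * Real.log (t + 2) := by
  rcases Nat.eq_zero_or_pos t with rfl | h
  · have := Real.log_two_gt_d9
    simp only [Nat.log_zero_right, Nat.cast_zero, zero_add, Nat.cast_one]
    linarith
  · refine (H873.log_scales h).trans ?_
    have := Real.log_le_log (x := (t : ℝ) + 1) (y := t + 2) (by positivity) (by linarith)
    linarith

/-- **`k` rounds, each of which deletes from every component at most `t` vertices, a shortest path,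
or the vertices of a crossless list; the components which are left have `c₁ ≤ C`** -/
theorem strip_distortion (P : ∀ (V : Type), SimpleGraph V → Prop) {C : ℝ} (hC : 1 ≤ C)
    (hP : ∀ (V : Type) [Finite V] (G : SimpleGraph V), G.Connected → P V G → DistortionLE G C)
    (t k : ℕ) (V : Type) [Finite V] (G : SimpleGraph V)
    (hc : G.Connected) (h : ∀ ℓ : Sym2 V → ℝ, (∀ e ∈ G.edgeSet, 0 < ℓ e) → Strip P t k G ℓ) :
    DistortionLE G (3328000 * (C + k * Real.log (t + 2))) := by
  intro ℓ hℓ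
  have hd := pathDist_isMet hc hℓ
  have hC0 : 0 < C := by linarith
  obtain ⟨Ω, m, μ, f, hf⟩ := pointed_embeds
    (K := 96 * C + 112 + k * (40 * ((Nat.log 2 t + 1 : ℕ) : ℝ))) (by positivity) hc hℓ
    (fun H hH hHl => strip_pointed hC0 hP (h ℓ hℓ) inferInstance hc hℓ H hH hHl)
  refine ⟨Ω, m, μ, f, fun x y => ⟨(hf x y).1, (hf x y).2.trans
    (mul_le_mul_of_nonneg_right ?_ (hd.nonneg x y))⟩⟩
  have h1 := mul_le_mul_of_nonneg_left (log_add_two t) (Nat.cast_nonneg k : (0 : ℝ) ≤ k)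
  have h2 : 0 ≤ (k : ℝ) * Real.log (t + 2) :=
    mul_nonneg (Nat.cast_nonneg k) (Real.log_nonneg (by
      have : (0 : ℝ) ≤ t := Nat.cast_nonneg t
      linarith))
  linarith

end Vale.Agent.P235
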