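import Vale.Agent.P235.H536.Merge

/-!
# All vertices on faces which touch the deleted connected set lie on one face
-/

namespace Vale.Agent.P235.H536

open SimpleGraph Finset

section

variable {V : Type} {G : SimpleGraph V} {S : Set V} {σ : Equiv.Perm G.Dart}

attribute [local instance] finite_dart

/-- `b` is the first inside dart after a dart which leaves `S` -/
def Mg (σ : Equiv.Perm G.Dart) (S : Set V) (b : (G.induce S).Dart) : Prop :=
  ∃ d : G.Dart, d.fst ∈ S ∧ d.snd ∉ S ∧ First σ S d b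

theorem step_in [Finite V] {a a1 : (G.induce S).Dart} (h : faceNext σ (upDart a) = upDart a1) :
    faceNext (indRot σ S) a = a1 := by
  refine upDart_injective (S := S) ?_
  have h1 := upDart_indRot σ a.symm
  have h2 : (σ ^ 1) (upDart a.symm) = upDart a1 := by
    rw [pow_one, ← h]
    rfl
  have h3 := retTime_min σ (upDart (G := G) (S := S)) a.symm one_pos ⟨a1, h2.symm⟩
  have h4 := retTime_pos σ (upDart (G := G) (S := S)) a.symm
  have h5 : retTime σ (upDart (G := G) (S := S)) a.symm = 1 := by omega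
  rw [h5, h2] at h1
  exact h1

theorem step_out [Finite V] {a : (G.induce S).Dart}
    (h : faceNext σ (upDart a) ∉ Set.range (upDart (G := G) (S := S))) :
    First σ S (faceNext σ (upDart a)) (faceNext (indRot σ S) a) := by
  have h1 := upDart_indRot σ a.symm
  have h4 := retTime_pos σ (upDart (G := G) (S := S)) a.symm
  obtain ⟨t, ht⟩ := Nat.exists_eq_succ_of_ne_zero h4.ne'
  refine ⟨t, ?_, fun j hj hr => ?_⟩
  · show (σ ^ t) (σ (upDart a).symm) = upDart (indRot σ S a.symm)
    rw [h1, ht, pow_succ, Equiv.Perm.mul_apply]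
    rfl
  · have h2 : (σ ^ (j + 1)) (upDart a.symm) ∈ Set.range (upDart (G := G) (S := S)) := by
      rw [pow_succ, Equiv.Perm.mul_apply]
      exact hr
    have h3 := retTime_min σ (upDart (G := G) (S := S)) a.symm (Nat.succ_pos j) h2
    omega

theorem trace_out [Finite V] (fst : ∀ d, (σ d).fst = d.fst) {a : (G.induce S).Dart} {e' : G.Dart}
    (h : (faceNext σ).SameCycle (upDart a) e') (he : e'.fst ∉ S) :
    ∃ b, Mg σ S b ∧ (faceNext (indRot σ S)).SameCycle b a := by
  obtain ⟨n, -, hn⟩ := h.exists_pow_eq'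
  clear h
  induction n generalizing a with
  | zero =>
    rw [pow_zero, Equiv.Perm.one_apply] at hn
    rw [← hn] at he
    exact absurd a.fst.2 he
  | succ n ih =>
    rw [pow_succ, Equiv.Perm.mul_apply] at hn
    by_cases hr : faceNext σ (upDart a) ∈ Set.range (upDart (G := G) (S := S))
    · obtain ⟨a1, ha1⟩ := hr
      rw [← ha1] at hn
      obtain ⟨b, hb, hc⟩ := ih hn
      refine ⟨b, hb, ?_⟩
      rw [← step_in ha1.symm] at hc
      exact Equiv.Perm.sameCycle_apply_right.1 hc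
    · refine ⟨faceNext (indRot σ S) a, ⟨_, ?_, ?_, step_out hr⟩,
        Equiv.Perm.sameCycle_apply_left.2 (Equiv.Perm.SameCycle.refl _ _)⟩
      · rw [faceNext_apply, fst]
        exact a.snd.2
      · intro hs
        refine hr ?_
        rw [mem_range_upDart]
        refine ⟨?_, hs⟩
        rw [faceNext_apply, fst]
        exact a.snd.2

theorem exists_first [Finite V] (cyc : ∀ d d' : G.Dart, d.fst = d'.fst → σ.SameCycle d d')
    {e : G.Dart} (a : (G.induce S).Dart) (ha : e.fst = a.fst.1) : ∃ b, First σ S e b := by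
  classical
  obtain ⟨n, -, hn⟩ := (cyc e (upDart a) ha).exists_pow_eq'
  have hex : ∃ n, (σ ^ n) e ∈ Set.range (upDart (G := G) (S := S)) := ⟨n, a, hn.symm⟩
  obtain ⟨b, hb⟩ := Nat.find_spec hex
  exact ⟨b, Nat.find hex, hb.symm, fun j hj => Nat.find_min hex hj⟩

theorem First.fst_eq [Finite V] (fst : ∀ d, (σ d).fst = d.fst) {d : G.Dart}
    {b : (G.induce S).Dart} (h : First σ S d b) : b.fst.1 = d.fst := by
  obtain ⟨n, hn, -⟩ := h
  rw [← upDart_fst, ← hn, pow_fst fst]

/-- every vertex of a connected graph with an edge starts a dart -/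
theorem exists_dart_at {W : Type} {H : SimpleGraph W} (hc : H.Connected) (hne : Nonempty H.Dart)
    (v : W) : ∃ a : H.Dart, a.fst = v := by
  obtain ⟨d⟩ := hne
  by_cases hv : v = d.fst
  · exact ⟨d, hv.symm⟩
  · obtain ⟨p⟩ := hc.preconnected v d.fst
    cases p with
    | nil => exact absurd rfl hv
    | @cons _ b _ hab q => exact ⟨⟨(v, b), hab⟩, rfl⟩

/-- a vertex of `S` on a face which meets the complement of `S` lies on a merged face -/
theorem exists_Mg [Finite V] (fst : ∀ d, (σ d).fst = d.fst)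
    (cyc : ∀ d d' : G.Dart, d.fst = d'.fst → σ.SameCycle d d') (hS : (G.induce S).Connected)
    (hne : Nonempty (G.induce S).Dart) {d : G.Dart} (hd : d.fst ∈ S) {d' : G.Dart}
    (h : (faceNext σ).SameCycle d d') (hd' : d'.fst ∉ S) :
    ∃ b, Mg σ S b ∧ (⟨d.fst, hd⟩ : S) ∈ onFace (indRot σ S) b := by
  by_cases hr : d ∈ Set.range (upDart (G := G) (S := S))
  · obtain ⟨a, rfl⟩ := hr
    obtain ⟨b, hb, hba⟩ := trace_out fst h hd'
    exact ⟨b, hb, a, hba, rfl⟩
  · obtain ⟨a, ha⟩ := exists_dart_at hS hne ⟨d.fst, hd⟩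
    obtain ⟨b, hb⟩ := exists_first cyc a (e := d) (by rw [ha])
    refine ⟨b, ⟨d, hd, ?_, hb⟩, b, Equiv.Perm.SameCycle.refl _ _, Subtype.ext (hb.fst_eq fst)⟩
    intro hs
    exact hr ((mem_range_upDart d).2 ⟨hd, hs⟩)

/-- **All vertices of `S` on faces which touch the connected set `X` lie on one face of the
induced map.** -/
theorem merge_face [Finite V] (fst : ∀ d, (σ d).fst = d.fst)
    (cyc : ∀ d d' : G.Dart, d.fst = d'.fst → σ.SameCycle d d') (hS : (G.induce S).Connected)
    (hz : ∀ (_ : Fintype G.Dart) (_ : DecidableEq V) (z : G.Dart → ZMod 2),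
      (∀ d : G.Dart, z d.symm = z d) → (∀ d : G.Dart, z d ≠ 0 → d.fst ∈ S) →
      (∀ v, ∑ d : G.Dart, (if d.fst = v then z d else 0) = 0) →
      ∃ u : G.Dart → ZMod 2, (∀ d, u (faceNext σ d) = u d) ∧ ∀ d, z d = u d + u d.symm)
    {X : Set V} (hX : (G.induce X).Connected) (hdis : Disjoint S X)
    (hSX : ∀ s ∈ S, ∀ x ∉ S, G.Adj s x → x ∈ X) (hne : Nonempty (G.induce S).Dart) :
    ∃ f : (G.induce S).Dart, ∀ (d : G.Dart) (hd : d.fst ∈ S),
      (∃ d', (faceNext σ).SameCycle d d' ∧ d'.fst ∉ S) →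
      (⟨d.fst, hd⟩ : S) ∈ onFace (indRot σ S) f := by
  have hw : ∀ x ∈ X, ∀ y ∈ X, ∃ p : G.Walk x y, ∀ w ∈ p.support, w ∉ S := by
    intro x hx y hy
    obtain ⟨p⟩ := hX.preconnected ⟨x, hx⟩ ⟨y, hy⟩
    have key : ∀ {x y : X} (p : (G.induce X).Walk x y),
        ∃ q : G.Walk x.1 y.1, ∀ w ∈ q.support, w ∈ X := by
      intro x y p
      induction p with
      | @nil a => exact ⟨Walk.nil, fun w hw => by
          rw [Walk.support_nil, List.mem_singleton] at hw
          rw [hw]
          exact a.2⟩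
      | @cons a b c h _ ih =>
        obtain ⟨q, hq⟩ := ih
        refine ⟨Walk.cons (show G.Adj a.1 b.1 from h) q, fun w hw => ?_⟩
        rw [Walk.support_cons, List.mem_cons] at hw
        rcases hw with rfl | hw
        exacts [a.2, hq w hw]
    obtain ⟨q, hq⟩ := key p
    exact ⟨q, fun w hw h => Set.disjoint_left.1 hdis h (hq w hw)⟩
  by_cases hm : ∃ m, Mg σ S m
  · obtain ⟨m, dm, hm1, hm2, hm3⟩ := hm
    refine ⟨m, fun d hd h => ?_⟩
    obtain ⟨d', hdd, hd'⟩ := h
    obtain ⟨b, ⟨db, hb1, hb2, hb3⟩, c, hbc, hc⟩ := exists_Mg fst cyc hS hne hd hdd hd'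
    have := merge fst cyc hS hz hm2 hb2
      (hw _ (hSX _ hm1 _ hm2 dm.adj) _ (hSX _ hb1 _ hb2 db.adj)) hm3 hb3
    exact ⟨c, this.trans hbc, hc⟩
  · obtain ⟨f⟩ := hne
    refine ⟨f, fun d hd h => ?_⟩
    obtain ⟨d', hdd, hd'⟩ := h
    obtain ⟨b, hb, -⟩ := exists_Mg fst cyc hS ⟨f⟩ hd hdd hd'
    exact absurd ⟨b, hb⟩ hm

end

end Vale.Agent.P235.H536
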