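import Vale.Agent.P235.H536.FaceCross
import Vale.Agent.P235.H536.Strip

/-!
# `k` rounds of deleting the boundary of a face
-/

namespace Vale.Agent.P235.H536

/-- faces are cycles -/
def CycStmt : Prop := ∀ (V : Type) [Finite V] (G : SimpleGraph V) (σ : Equiv.Perm G.Dart),
  G.Connected → PlaneMap G σ → ∀ (_ : Fintype G.Dart) (_ : DecidableEq V) (z : G.Dart → ZMod 2),
    (∀ d, z d.symm = z d) →
    (∀ v, ∑ d : G.Dart, (if d.fst = v then z d else 0) = 0) →
    ∃ u : G.Dart → ZMod 2, (∀ d, u (faceNext σ d) = u d) ∧ ∀ d, z d = u d + u d.symm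

theorem planar_strip (hcyc : CycStmt) {C : ℝ} {k : ℕ} {V : Type} {G : SimpleGraph V}
    (h : PlanarPeel C k G) : Finite V → G.Connected → ∀ ℓ : Sym2 V → ℝ,
      (∀ e ∈ G.edgeSet, 0 < ℓ e) → Strip (fun _ G => DistortionLE G C) 0 k G ℓ := by
  induction h with
  | leaf hD =>
    intro _ _ ℓ _
    exact Strip.leaf hD
  | @face k V G σ d hσ _ ih =>
    intro hfin hc ℓ hℓ
    obtain ⟨n, x, -, hx, hr⟩ := crossless_face_of hσ (hcyc V G σ hc hσ) d
    refine Strip.round (X := onFace σ d) ⟨d.fst, d, Equiv.Perm.SameCycle.refl _ _, rfl⟩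
      (Or.inr (Or.inr ⟨n, x, hx, hr.symm⟩)) fun u hu => ?_
    exact ih u hu inferInstance (comp_connected hu) _ (induce_pos hℓ _)

theorem planar_distortion_of (hcyc : CycStmt) (k : ℕ) {C : ℝ} (hC : 1 ≤ C) (V : Type) [Finite V]
    (G : SimpleGraph V) (hc : G.Connected) (h : PlanarPeel C k G) :
    DistortionLE G (3328000 * (C + k)) := by
  refine (strip_distortion (fun _ G => DistortionLE G C) hC (fun _ _ _ _ h => h) 0 k V G hc
    fun ℓ hℓ => planar_strip hcyc h inferInstance hc ℓ hℓ).mono ?_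
  have h1 : Real.log (((0 : ℕ) : ℝ) + 2) ≤ 1 := by
    have := Real.log_two_lt_d9
    norm_num
    linarith
  have h2 : (k : ℝ) * Real.log (((0 : ℕ) : ℝ) + 2) ≤ k * 1 :=
    mul_le_mul_of_nonneg_left h1 (Nat.cast_nonneg k)
  linarith

end Vale.Agent.P235.H536
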