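import Vale.Agent.P235.H105.PeelSum

/-!
# Rounds which remove a set on which a nonexpansive `L₁` map of the whole graph is expanding
-/

namespace Vale.Agent.P235.H536

open Finset

/-- localisation of an `L₁` semimetric at the scale `H` -/
theorem fanL1 {V : Type} [Finite V] {F : V → V → ℝ} (hF : IsL1 F) {H : V → ℝ}
    (hH : ∀ v, 0 < H v) :
    ∃ σ : Option V → Option V → ℝ, IsL1 σ ∧
      (∀ u v, σ (some u) (some v) ≤ (12 * F u v + 14 * |H u - H v|) / 250) ∧
      (∀ v, σ (some v) none ≤ H v) ∧ (∀ v, H v / 2000 ≤ σ (some v) none) ∧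
      ∀ x y, min (F x y) (H x + H y) / 2000 ≤ σ (some x) (some y) := by
  classical
  have : Fintype V := Fintype.ofFinite V
  let K : Set (Option V) := {a | a ≠ none}
  have hget : ∀ a : K, ∃ v, a.1 = some v := fun a => Option.ne_none_iff_exists'.1 a.2
  choose get hget using hget
  have hmem : ∀ v : V, (some v : Option V) ∈ K := fun v => by simp [K]
  have hgs : ∀ v : V, get ⟨some v, hmem v⟩ = v := fun v =>
    (Option.some.inj (hget ⟨some v, hmem v⟩)).symm
  let ρ : K → K → ℝ := fun a b => F (get a) (get b)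
  have hρI : IsL1 ρ := hF.comap get
  let D : Option V → ℝ := fun a => a.elim 0 H
  have hDs : ∀ v, D (some v) = H v := fun v => rfl
  have hDn : D none = 0 := rfl
  have hD0 : ∀ a, 0 ≤ D a := by
    intro a
    cases a with
    | none => exact le_rfl
    | some v => exact (hH v).le
  let φ : ℤ → Option V → ℝ := fun j a => prof (D a / 2 ^ j)
  have hφn : ∀ j a, 0 ≤ φ j a := fun j a => prof_nonneg _
  have hφ2 : ∀ j a, φ j a ≤ 2 := fun j a => prof_le _
  have hφ0 : ∀ j, ∀ a, a ∉ K → φ j a = 0 := by
    intro j a ha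
    have : a = none := by
      by_contra h
      exact ha h
    show prof (D a / 2 ^ j) = 0
    rw [this, hDn, zero_div]
    unfold prof
    refine max_eq_left ((min_le_left _ _).trans (by norm_num))
  have hφl : ∀ (j : ℤ) (a b : Option V), (2 : ℝ) ^ j * |φ j a - φ j b| ≤ 2 * |D a - D b| := by
    intro j a b
    have hj : (0 : ℝ) < 2 ^ j := by positivity
    calc (2 : ℝ) ^ j * |prof (D a / 2 ^ j) - prof (D b / 2 ^ j)|
        ≤ 2 ^ j * (2 * |D a / 2 ^ j - D b / 2 ^ j|) :=
          mul_le_mul_of_nonneg_left (prof_lip _ _) hj.le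
      _ = 2 * |D a - D b| := by
          rw [← sub_div, abs_div, abs_of_pos hj]
          field_simp
  have hS : ∀ j : ℤ, ∃ R : Option V → Option V → ℝ, IsL1 R ∧
      (∀ x y : K, R x y ≤ φ j x * ρ x y + 2 ^ j * |φ j x - φ j y|) ∧
      (∀ x y : K, φ j x * (min (ρ x y) (2 ^ j) / 2) - 2 ^ j * |φ j x - φ j y| ≤ R x y) ∧
      (∀ x y : Option V, y ∉ K → R x y = 2 ^ j * φ j x) := fun j =>
    one_scale hρI (by positivity) (φ j) (hφn j) (hφ0 j)
  choose R hRI hR1 hR2 hR3 using hS
  have hRn : ∀ j x y, 0 ≤ R j x y := fun j x y => (hRI j).nonneg x y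
  let J : Finset ℤ := Finset.univ.image fun v : V => Int.log 2 (H v)
  have hJ : ∀ v : V, Int.log 2 (H v) ∈ J := fun v =>
    Finset.mem_image_of_mem _ (Finset.mem_univ v)
  have hlog1 : ∀ v, (2 : ℝ) ^ (Int.log 2 (H v)) ≤ H v := fun v =>
    Int.zpow_log_le_self (by norm_num) (hH v)
  have hlog2 : ∀ v : V, H v < 2 * (2 : ℝ) ^ (Int.log 2 (H v)) := by
    intro v
    have := Int.lt_zpow_succ_log_self (b := 2) (by norm_num) (H v)
    rw [zpow_add_one₀ (by norm_num)] at this
    push_cast at this
    linarith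
  have hφ1 : ∀ v : V, 1 ≤ φ (Int.log 2 (H v)) (some v) := by
    intro v
    have hj : (0 : ℝ) < 2 ^ (Int.log 2 (H v)) := by positivity
    refine prof_ge ?_ ?_
    · rw [le_div_iff₀ hj, one_mul]; exact hlog1 v
    · rw [div_le_iff₀ hj]; exact (hlog2 v).le
  have hsingle : ∀ j ∈ J, ∀ x y, R j x y ≤ ∑ j ∈ J, R j x y := fun j hj x y =>
    Finset.single_le_sum (f := fun j => R j x y) (fun j _ => hRn j x y) hj
  have hsI : IsL1 (fun x y => ∑ j ∈ J, R j x y) := IsL1.sum J (fun j => R j) fun j _ => hRI j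
  have hDI : IsL1 (fun a b => 2 * |D a - D b|) := (isL1_line D).smul (by norm_num)
  have hI := (hsI.add hDI).smul (by norm_num : (0 : ℝ) ≤ 1 / 250)
  have hF0 : ∀ u v, 0 ≤ F u v := hF.nonneg
  have lower : ∀ x y : V, H y ≤ H x → min (F x y) (H x + H y) / 8 - 2 * |H x - H y| ≤
      ∑ j ∈ J, R j (some x) (some y) := by
    intro x y hle
    refine le_trans ?_ (hsingle _ (hJ x) (some x) (some y))
    have h1 := hR2 (Int.log 2 (H x)) ⟨some x, hmem x⟩ ⟨some y, hmem y⟩
    have e1 : ρ ⟨some x, hmem x⟩ ⟨some y, hmem y⟩ = F x y := by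
      show F (get _) (get _) = F x y
      rw [hgs, hgs]
    rw [e1] at h1
    simp only at h1
    refine le_trans ?_ h1
    have h2 := hφl (Int.log 2 (H x)) (some x) (some y)
    rw [hDs, hDs] at h2
    have h3 := hφ1 x
    have h4 := hlog2 x
    have hx := hH x
    have hy := hH y
    have h6 : min (F x y) (H x + H y) / 4 ≤ min (F x y) (2 ^ (Int.log 2 (H x))) := by
      refine le_min ?_ ?_
      · have h7 := min_le_left (F x y) (H x + H y)
        have h8 := hF0 x y
        linarith
      · have h7 := min_le_right (F x y) (H x + H y)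
        linarith
    have h7 : 0 ≤ min (F x y) (2 ^ (Int.log 2 (H x))) / 2 := by
      have : 0 ≤ min (F x y) ((2 : ℝ) ^ (Int.log 2 (H x))) := le_min (hF0 _ _) (by positivity)
      linarith
    have h8 := mul_le_mul_of_nonneg_right h3 h7
    rw [one_mul] at h8
    linarith
  refine ⟨_, hI, ?_, ?_, ?_, ?_⟩
  · -- edges
    intro u v
    have hB0 : 0 ≤ 2 * F u v + 2 * |H u - H v| := by
      have := hF0 u v
      positivity
    set A : Finset ℤ := Finset.Icc (Int.log 2 (H u) - 1) (Int.log 2 (H u) + 1) ∪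
      Finset.Icc (Int.log 2 (H v) - 1) (Int.log 2 (H v) + 1) with hA
    have hcard : (A.card : ℝ) ≤ 6 := by
      have h1 : A.card ≤ 6 := by
        refine (Finset.card_union_le _ _).trans ?_
        rw [Int.card_Icc, Int.card_Icc]
        have e1 : (Int.log 2 (H u) + 1 + 1 - (Int.log 2 (H u) - 1)).toNat = 3 := by
          have : Int.log 2 (H u) + 1 + 1 - (Int.log 2 (H u) - 1) = 3 := by ring
          rw [this]; rfl
        have e2 : (Int.log 2 (H v) + 1 + 1 - (Int.log 2 (H v) - 1)).toNat = 3 := by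
          have : Int.log 2 (H v) + 1 + 1 - (Int.log 2 (H v) - 1) = 3 := by ring
          rw [this]; rfl
        rw [e1, e2]
      exact_mod_cast h1
    have hterm : ∀ j ∈ J, R j (some u) (some v) ≤
        if j ∈ A then 2 * F u v + 2 * |H u - H v| else 0 := by
      intro j _
      have h1 := hR1 j ⟨some u, hmem u⟩ ⟨some v, hmem v⟩
      have e1 : ρ ⟨some u, hmem u⟩ ⟨some v, hmem v⟩ = F u v := by
        show F (get _) (get _) = F u v
        rw [hgs, hgs]
      rw [e1] at h1
      simp only at h1
      by_cases hj : j ∈ A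
      · rw [if_pos hj]
        refine h1.trans (add_le_add ?_ ?_)
        · exact mul_le_mul_of_nonneg_right (hφ2 j _) (hF0 _ _)
        · have h2 := hφl j (some u) (some v)
          rw [hDs, hDs] at h2
          exact h2
      · rw [if_neg hj]
        rw [hA, Finset.mem_union, not_or] at hj
        have hx0 : φ j (some u) = 0 := by
          by_contra hne
          exact hj.1 (active (hH u) hne)
        have hy0 : φ j (some v) = 0 := by
          by_contra hne
          exact hj.2 (active (hH v) hne)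
        rw [hx0, hy0] at h1
        simpa using h1
    have hsum : ∑ j ∈ J, R j (some u) (some v) ≤ 6 * (2 * F u v + 2 * |H u - H v|) := by
      refine (Finset.sum_le_sum hterm).trans ?_
      rw [Finset.sum_ite_mem, Finset.sum_const, nsmul_eq_mul]
      have h2 : ((J ∩ A).card : ℝ) ≤ A.card := by
        exact_mod_cast Finset.card_le_card Finset.inter_subset_right
      exact mul_le_mul_of_nonneg_right (h2.trans hcard) hB0
    show 1 / 250 * (∑ j ∈ J, R j (some u) (some v) + 2 * |H u - H v|) ≤ _
    linarith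
  · -- upper bound at the base point
    intro v
    have hn : (none : Option V) ∉ K := fun h => h rfl
    set A : Finset ℤ := Finset.Icc (Int.log 2 (H v) - 1) (Int.log 2 (H v) + 1) with hA
    have hcard : (A.card : ℝ) = 3 := by
      have h1 : A.card = 3 := by
        rw [hA, Int.card_Icc]
        have : Int.log 2 (H v) + 1 + 1 - (Int.log 2 (H v) - 1) = 3 := by ring
        rw [this]; rfl
      rw [h1]; norm_num
    have hterm : ∀ j ∈ J, R j (some v) none ≤ if j ∈ A then 4 * H v else 0 := by
      intro j _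
      rw [hR3 j (some v) none hn]
      by_cases hj : j ∈ A
      · rw [if_pos hj]
        by_cases h0 : φ j (some v) = 0
        · rw [h0, mul_zero]; linarith [hH v]
        · have h1 := (prof_ne h0).1
          rw [hDs] at h1
          have hj : (0 : ℝ) < 2 ^ j := by positivity
          rw [lt_div_iff₀ hj] at h1
          calc (2 : ℝ) ^ j * φ j (some v) ≤ 2 ^ j * 2 :=
                mul_le_mul_of_nonneg_left (hφ2 j _) hj.le
            _ ≤ _ := by linarith
      · rw [if_neg hj]
        have hx0 : φ j (some v) = 0 := by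
          by_contra hne
          exact hj (active (hH v) hne)
        rw [hx0, mul_zero]
    have hsum : ∑ j ∈ J, R j (some v) none ≤ 3 * (4 * H v) := by
      refine (Finset.sum_le_sum hterm).trans ?_
      rw [Finset.sum_ite_mem, Finset.sum_const, nsmul_eq_mul]
      have h2 : ((J ∩ A).card : ℝ) ≤ A.card := by
        exact_mod_cast Finset.card_le_card Finset.inter_subset_right
      rw [hcard] at h2
      have h3 : 0 ≤ 4 * H v := by linarith [hH v]
      exact mul_le_mul_of_nonneg_right h2 h3
    show 1 / 250 * (∑ j ∈ J, R j (some v) none + 2 * |H v - 0|) ≤ _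
    rw [sub_zero, abs_of_pos (hH v)]
    linarith [hH v]
  · -- lower bound at the base point
    intro v
    have h1 : 0 ≤ ∑ j ∈ J, R j (some v) none := hsI.nonneg (some v) none
    show _ ≤ 1 / 250 * (∑ j ∈ J, R j (some v) none + 2 * |H v - 0|)
    rw [sub_zero, abs_of_pos (hH v)]
    linarith [hH v]
  · -- pairs
    intro x y
    show _ ≤ 1 / 250 * (∑ j ∈ J, R j (some x) (some y) + 2 * |H x - H y|)
    rcases le_total (H y) (H x) with h | h
    · have := lower x y h
      linarith
    · have h1 := lower y x h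
      have e : ∑ j ∈ J, R j (some y) (some x) = ∑ j ∈ J, R j (some x) (some y) :=
        Finset.sum_congr rfl fun j _ => (hRI j).symm _ _
      rw [e, hF.symm y x, abs_sub_comm, add_comm (H y)] at h1
      linarith


section step

variable {V : Type} {G : SimpleGraph V} {ℓ : Sym2 V → ℝ}

/-- the localised map separates all pairs one of which is close to the set -/
theorem set_separate [Finite V] (hc : G.Connected) (hℓ : ∀ e ∈ G.edgeSet, 0 < ℓ e) {H : V → ℝ}
    {P : Set V} {F : V → V → ℝ} (hF : IsL1 F) (hFl : ∀ u v, G.Adj u v → F u v ≤ ℓ s(u, v))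
    (hFX : ∀ u ∈ P, ∀ v ∈ P, pathDist G ℓ u v ≤ F u v) {ν : V → V}
    (hν : Near G ℓ P ν) {x y z : V} {δ S1 S2 : ℝ} (hδ : 0 < δ)
    (hx : δ ≤ H x) (hy : δ ≤ H y) (hxy : 8 * δ ≤ pathDist G ℓ x y) (hz : z ∈ P)
    (hxz : pathDist G ℓ x z < δ)
    (h1 : 1 / 2000 * min (F x y) (H x + H y) ≤ S1)
    (h2 : 1 / 2000 * min |pathDist G ℓ x (ν x) - pathDist G ℓ y (ν y)| (H x + H y) ≤ S2)
    (hS1 : 0 ≤ S1) (hS2 : 0 ≤ S2) : δ ≤ 2000 * (S1 + S2) := by
  have hd := pathDist_isMet hc hℓ
  have hFd : ∀ u v, F u v ≤ pathDist G ℓ u v := by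
    intro u v
    have := pathDist_semi (G := G) (ℓ := ℓ) (ρ := F) (K := 1) hc one_pos (fun a => hF.self a)
      (fun a b c => hF.tri a b c) (fun a b hab => by rw [one_mul]; exact hFl a b hab) u v
    rwa [one_mul] at this
  have hsx : pathDist G ℓ x (ν x) < δ := (hν.le x z hz).trans_lt hxz
  have hsx0 := hd.nonneg x (ν x)
  by_cases hcase : δ ≤ |pathDist G ℓ x (ν x) - pathDist G ℓ y (ν y)|
  · have h3 : δ ≤ min |pathDist G ℓ x (ν x) - pathDist G ℓ y (ν y)| (H x + H y) :=
      le_min hcase (by linarith)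
    linarith
  · push Not at hcase
    have h3 := (abs_lt.1 hcase).1
    have hsy : pathDist G ℓ y (ν y) < 2 * δ := by linarith
    have t1 := hd.tri x z y
    have t2 := hd.tri z (ν y) y
    have t3 := hd.symm (ν y) y
    have hzz : 5 * δ ≤ pathDist G ℓ z (ν y) := by linarith
    have u0 := hFX z hz (ν y) (hν.mem y)
    have u1 := hFd x z
    have u2 := hFd y (ν y)
    have u3 := hF.tri z x (ν y)
    have u4 := hF.tri x y (ν y)
    have u5 := hF.symm z x
    have h4 : 2 * δ ≤ F x y := by linarith
    have h5 : 2 * δ ≤ min (F x y) (H x + H y) := le_min h4 (by linarith)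
    linarith

/-- one round which removes a nonempty set `P` such that some nonexpansive `L₁` map of the whole
graph does not decrease the distances in `P` -/
theorem pointed_step_set [Finite V] (hc : G.Connected) (hℓ : ∀ e ∈ G.edgeSet, 0 < ℓ e) {H : V → ℝ}
    (hH : ∀ v, 0 < H v) (hHl : ∀ u v, G.Adj u v → |H u - H v| ≤ ℓ s(u, v)) {P : Set V}
    (hP : P.Nonempty) {F : V → V → ℝ} (hF : IsL1 F) (hFl : ∀ u v, G.Adj u v → F u v ≤ ℓ s(u, v))
    (hFX : ∀ u ∈ P, ∀ v ∈ P, pathDist G ℓ u v ≤ F u v) {K : ℝ} (hK : 0 ≤ K)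
    (ih : ∀ u ∉ P, ∀ H' : compSet G P u → ℝ, (∀ v, 0 < H' v) →
      (∀ a b, (G.induce (compSet G P u)).Adj a b → |H' a - H' b| ≤ ℓ s(a.1, b.1)) →
      Pointed (G.induce (compSet G P u)) (fun e => ℓ (e.map Subtype.val)) H' K) :
    Pointed G ℓ H (K + 2) := by
  classical
  have := Fintype.ofFinite V
  have hd := pathDist_isMet hc hℓ
  obtain ⟨φ, hφ0, hφH, hφP, hφpos, hφl, hφn⟩ := exists_barrier hℓ hH hHl P
  obtain ⟨ν, hν⟩ := exists_near (X := P) hc hℓ hP
  have hH0 : ∀ v, 0 ≤ H v := fun v => (hH v).le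
  obtain ⟨G1, hG1, hm1, hb1, hb1', hl1⟩ := fanL1 hF hH
  obtain ⟨ι2, _, w2, g2, hw2, hs2, hb2, hm2, hl2, -, -⟩ := fan' fan (fun _ : V => ())
    (fun v => pathDist G ℓ v (ν v)) H hH0
  -- components
  let Q := Quotient (compSetoid G P)
  have : Fintype Q := Fintype.ofFinite Q
  have hQ : ∀ c : Q, Pointed (G.induce (compSet G P c.out.1)) (fun e => ℓ (e.map Subtype.val))
      (fun v => φ v.1) K := fun c => ih c.out.1 c.out.2 (fun v => φ v.1)
      (fun v => hφpos v.1 (ReachOff.right v.2)) (fun a b hab => hφl a.1 b.1 hab)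
  choose r hrI hr1 hr2 hr3 hr4 using hQ
  have hmk : ∀ (v : V) (hv : v ∉ P), v ∈ compSet G P (⟦⟨v, hv⟩⟧ : Q).out.1 := by
    intro v hv
    exact Quotient.mk_out (s := compSetoid G P) ⟨v, hv⟩
  have huniq : ∀ (c : Q) (v : V) (hv : v ∉ P), v ∈ compSet G P c.out.1 → c = ⟦⟨v, hv⟩⟧ := by
    intro c v hv h
    have h1 : (⟦c.out⟧ : Q) = ⟦⟨v, hv⟩⟧ := Quotient.sound h
    rwa [Quotient.out_eq] at h1
  have hrX : ∀ (c : Q) (v : V), v ∈ P → v ∉ compSet G P c.out.1 := fun c v hv h =>
    ReachOff.right h hv
  let e : ∀ c : Q, Option V → Option (compSet G P c.out.1) := fun c a =>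
    a.elim none fun v => if h : v ∈ compSet G P c.out.1 then some ⟨v, h⟩ else none
  have he0 : ∀ c, e c none = none := fun c => rfl
  have he1 : ∀ c v (h : v ∈ compSet G P c.out.1), e c (some v) = some ⟨v, h⟩ := by
    intro c v h
    exact dif_pos h
  have he2 : ∀ c v, v ∉ compSet G P c.out.1 → e c (some v) = none := by
    intro c v h
    exact dif_neg h
  let G2 : Option V → Option V → ℝ := fun a b => ∑ i, w2 i * |a.elim 0 (g2 i) - b.elim 0 (g2 i)|
  let G3 : Option V → Option V → ℝ := fun a b => ∑ c : Q, r c (e c a) (e c b)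
  have hG2 : IsL1 G2 := IsL1.sum Finset.univ
    (fun i (a b : Option V) => w2 i * |a.elim 0 (g2 i) - b.elim 0 (g2 i)|)
    fun i _ => (isL1_line (fun a : Option V => a.elim 0 (g2 i))).smul (hw2 i)
  have hG3 : IsL1 G3 := IsL1.sum Finset.univ (fun c a b => r c (e c a) (e c b))
    fun c _ => (hrI c).comap (e c)
  have hn1' : ∀ a b, 0 ≤ G1 a b := hG1.nonneg
  have hn2' : ∀ a b, 0 ≤ G2 a b := hG2.nonneg
  have hn3' : ∀ a b, 0 ≤ G3 a b := hG3.nonneg
  have hterm : ∀ (c : Q) a b, 0 ≤ r c (e c a) (e c b) := fun c a b => (hrI c).nonneg _ _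
  have hsingle : ∀ (c : Q) a b, r c (e c a) (e c b) ≤ G3 a b := fun c a b =>
    Finset.single_le_sum (f := fun c => r c (e c a) (e c b)) (fun c _ => hterm c a b)
      (Finset.mem_univ c)
  refine ⟨fun a b => (G1 a b + G2 a b) + G3 a b, (hG1.add hG2).add hG3, ?_, ?_, ?_, ?_⟩
  · -- edges
    intro u v huv
    have hl0 : 0 < ℓ s(u, v) := hℓ _ huv
    have hadj := pathDist_adj hℓ huv
    have f1 : G1 (some u) (some v) ≤ ℓ s(u, v) := by
      have a1 := hm1 u v
      have a2 := hFl u v huv
      have a3 := hHl u v huv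
      linarith
    have f2 : G2 (some u) (some v) ≤ ℓ s(u, v) := by
      have : ∀ i ∈ Finset.univ, w2 i * |g2 i u - g2 i v| ≤ w2 i * ℓ s(u, v) := by
        intro i _
        apply mul_le_mul_of_nonneg_left _ (hw2 i)
        refine (hm2 i u v rfl).trans (max_le ?_ (hHl u v huv))
        have a1 := hν.lip hc hℓ u v
        have a2 := hν.lip hc hℓ v u
        rw [hd.symm v u] at a2
        rw [abs_le]; constructor <;> linarith
      refine (Finset.sum_le_sum this).trans ?_
      rw [← Finset.sum_mul, hs2, one_mul]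
    have hone : ∀ u v, u ∉ P → G.Adj u v → G3 (some u) (some v) ≤ K * ℓ s(u, v) := by
      intro u v hu huv
      have hsum : G3 (some u) (some v) = r ⟦⟨u, hu⟩⟧ (e _ (some u)) (e _ (some v)) := by
        refine Finset.sum_eq_single _ (fun c _ hc => ?_) (fun h => absurd (Finset.mem_univ _) h)
        have h1 : u ∉ compSet G P c.out.1 := fun h => hc (huniq c u hu h)
        have h2 : v ∉ compSet G P c.out.1 := fun h =>
          h1 (ReachOff.trans h (ReachOff.adj (ReachOff.right h) hu huv.symm))
        rw [he2 c u h1, he2 c v h2]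
        exact (hrI c).self _
      rw [hsum, he1 _ u (hmk u hu)]
      by_cases hv : v ∈ P
      · rw [he2 _ v (hrX _ v hv)]
        refine (hr2 _ _).trans (mul_le_mul_of_nonneg_left ?_ hK)
        have h1 := hφl u v huv
        rw [hφP v hv, sub_zero] at h1
        exact (le_abs_self _).trans h1
      · have hvK : v ∈ compSet G P (⟦⟨u, hu⟩⟧ : Q).out.1 :=
          ReachOff.trans (hmk u hu) (ReachOff.adj hu hv huv)
        rw [he1 _ v hvK]
        exact hr1 _ _ _ huv
    have f3 : G3 (some u) (some v) ≤ K * ℓ s(u, v) := by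
      by_cases hu : u ∈ P
      · by_cases hv : v ∈ P
        · have hz : G3 (some u) (some v) = 0 := Finset.sum_eq_zero fun c _ => by
            rw [he2 c u (hrX c u hu), he2 c v (hrX c v hv)]
            exact (hrI c).self _
          rw [hz]
          positivity
        · rw [hG3.symm, Sym2.eq_swap]
          exact hone v u hv huv.symm
      · exact hone u v hu huv
    show G1 (some u) (some v) + G2 (some u) (some v) + G3 (some u) (some v) ≤ _
    linarith
  · -- upper bound at the base point
    intro v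
    have f1 : G1 (some v) none ≤ H v := hb1 v
    have f2 : G2 (some v) none ≤ H v := by
      have : ∀ i ∈ Finset.univ, w2 i * |g2 i v - 0| ≤ w2 i * H v := by
        intro i _
        apply mul_le_mul_of_nonneg_left _ (hw2 i)
        rw [sub_zero]; exact hb2 i v
      refine (Finset.sum_le_sum this).trans ?_
      rw [← Finset.sum_mul, hs2, one_mul]
    have f3 : G3 (some v) none ≤ K * H v := by
      by_cases hv : v ∈ P
      · have hz : G3 (some v) none = 0 := Finset.sum_eq_zero fun c _ => by
          rw [he2 c v (hrX c v hv), he0]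
          exact (hrI c).self _
        rw [hz]
        exact mul_nonneg hK (hH0 v)
      · have hsum : G3 (some v) none = r ⟦⟨v, hv⟩⟧ (e _ (some v)) (e _ none) := by
          refine Finset.sum_eq_single _ (fun c _ hc => ?_) (fun h => absurd (Finset.mem_univ _) h)
          have h1 : v ∉ compSet G P c.out.1 := fun h => hc (huniq c v hv h)
          rw [he2 c v h1, he0]
          exact (hrI c).self _
        rw [hsum, he1 _ v (hmk v hv), he0]
        exact (hr2 _ _).trans (mul_le_mul_of_nonneg_left (hφH v) hK)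
    show G1 (some v) none + G2 (some v) none + G3 (some v) none ≤ _
    linarith
  · -- lower bound at the base point
    intro v
    have f1 : H v / 2000 ≤ G1 (some v) none := hb1' v
    have := hn2' (some v) none
    have := hn3' (some v) none
    show H v ≤ 2000 * (G1 (some v) none + G2 (some v) none + G3 (some v) none)
    linarith
  · -- separation
    intro x y δ hx hy hxy
    show δ ≤ 2000 * (G1 (some x) (some y) + G2 (some x) (some y) + G3 (some x) (some y))
    have p1 := hn1' (some x) (some y)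
    have p2 := hn2' (some x) (some y)
    have p3 := hn3' (some x) (some y)
    rcases le_or_gt δ 0 with hδ | hδ
    · linarith
    have key : ∀ a b, δ ≤ H a → δ ≤ H b → 8 * δ ≤ pathDist G ℓ a b → φ a < δ →
        δ ≤ 2000 * (G1 (some a) (some b) + G2 (some a) (some b)) := by
      intro a b ha hb hab hφa
      obtain ⟨z, hz, hzf⟩ := hφn a (hφa.trans_le ha)
      have haz : pathDist G ℓ a z < δ := by
        have h1 := hzf (fun v => pathDist G ℓ v z) (fun u v huv => by
          have a1 := hd.tri u v z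
          have a2 := hd.tri v u z
          rw [hd.symm v u] at a2
          have a3 := pathDist_adj hℓ huv
          rw [abs_le]; constructor <;> linarith)
        rw [hd.self, sub_zero] at h1
        exact ((le_abs_self _).trans h1).trans_lt hφa
      exact set_separate hc hℓ hF hFl hFX hν hδ ha hb hab hz haz (by
        have := hl1 a b
        linarith) (hl2 a b rfl) (hn1' (some a) (some b)) (hn2' (some a) (some b))
    by_cases hφx : δ ≤ φ x
    · by_cases hφy : δ ≤ φ y
      · have hxP : x ∉ P := fun h => by rw [hφP x h] at hφx; linarith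
        have hyP : y ∉ P := fun h => by rw [hφP y h] at hφy; linarith
        have h3 := hsingle ⟦⟨x, hxP⟩⟧ (some x) (some y)
        rw [he1 _ x (hmk x hxP)] at h3
        by_cases hyK : y ∈ compSet G P (⟦⟨x, hxP⟩⟧ : Q).out.1
        · rw [he1 _ y hyK] at h3
          have h4 := hr4 ⟦⟨x, hxP⟩⟧ ⟨x, hmk x hxP⟩ ⟨y, hyK⟩ δ hφx hφy
            (hxy.trans (pathDist_comp_ge hc hℓ (comp_connected (⟦⟨x, hxP⟩⟧ : Q).out.2)
              ⟨x, hmk x hxP⟩ ⟨y, hyK⟩))
          linarith
        · rw [he2 _ y hyK] at h3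
          have h4 := hr3 ⟦⟨x, hxP⟩⟧ ⟨x, hmk x hxP⟩
          have h5 : φ x ≤ 2000 * r ⟦⟨x, hxP⟩⟧ (some ⟨x, hmk x hxP⟩) none := h4
          linarith
      · push Not at hφy
        have h1 := key y x hy hx (by rw [hd.symm]; exact hxy) hφy
        rw [hG1.symm, hG2.symm] at h1
        linarith
    · push Not at hφx
      have h1 := key x y hx hy hxy hφx
      linarith

end step

end Vale.Agent.P235.H536
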