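import Vale.Agent.P235.Comp.Defs

namespace Vale.Agent.P235

/-- `SPD k G ℓ`: `k` rounds, each of which removes a shortest path (for the edge lengths `ℓ`) from
every component, exhaust `G`. -/
inductive SPD : ℕ → ∀ {V : Type}, SimpleGraph V → (Sym2 V → ℝ) → Prop
  | path {k : ℕ} {V : Type} {G : SimpleGraph V} {ℓ : Sym2 V → ℝ} {x y : V} (q : G.Walk x y) :
      (q.edges.map ℓ).sum = pathDist G ℓ x y →
      (∀ u ∉ q.support, SPD k (G.induce (compSet G {v | v ∈ q.support} u))
        (fun e => ℓ (e.map Subtype.val))) → SPD (k + 1) G ℓ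

/-- `k` rounds suffice for all positive edge lengths. -/
def SPDLE {V : Type} (G : SimpleGraph V) (k : ℕ) : Prop :=
  ∀ ℓ : Sym2 V → ℝ, (∀ e ∈ G.edgeSet, 0 < ℓ e) → SPD k G ℓ

/-- The graphs of treewidth at most `3`, and the graphs from which at most `t` vertices can be
deleted such that the rest has pathwidth at most `w`, or such that for every component of the rest
`w` rounds of removing shortest paths suffice, for all positive edge lengths. -/
def Piece3 (w t : ℕ) (V : Type) (G : SimpleGraph V) : Prop :=
  TreewidthLE G 3 ∨ ∃ S : Finset V, S.card ≤ t ∧ (PathwidthLE (G.induce {v | v ∉ S}) w ∨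
    ∀ u ∉ S, SPDLE (G.induce (compSet G {v | v ∈ S} u)) w)

end Vale.Agent.P235
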