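import Vale.Agent.P235.H536.Sharp
import Vale.Agent.P235.H536.SpdDefs
import Vale.Agent.P235.H105.Spd
import Vale.Agent.P235.H105.Peel

/-!
# Shortest path decompositions: the line property with a linear constant
-/

namespace Vale.Agent.P235

/-- the components can be treated separately -/
theorem pathStr_combine (k : ℕ) : ∀ {V : Type} (G : SimpleGraph V) (ρ : V → V → ℝ)
    (K : V → Set V) (W : Set V), (∀ u v, G.Adj u v → u ∈ W → v ∈ W → K u = K v) →
    (∀ v ∈ W, v ∈ K v) → (∀ v ∈ W, ∀ u ∈ K v, u ∈ W → K u = K v) →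
    (∀ v ∈ W, PathStr (G.induce (K v)) (fun a b => ρ a b) k {a | a.1 ∈ W}) →
    PathStr G ρ k W := by
  classical
  induction k with
  | zero =>
    intro V G ρ K W hK hself hcl h
    show W = ∅
    rw [Set.eq_empty_iff_forall_notMem]
    intro v hv
    have h1 : {a : K v | a.1 ∈ W} = ∅ := h v hv
    have h2 : (⟨v, hself v hv⟩ : K v) ∈ {a : K v | a.1 ∈ W} := hv
    rw [h1] at h2
    exact h2
  | succ k ih =>
    intro V G ρ K W hK hself hcl h
    have hpick : ∀ L : Set V, ∃ (C : V → Set V) (t : V → ℝ) (P : Set V),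
        (∃ v ∈ W, K v = L) → P ⊆ W ∩ L ∧
        (∀ u v, G.Adj u v → u ∈ W → v ∈ W → u ∈ L → v ∈ L → C u = C v ∧ |t u - t v| ≤ ρ u v) ∧
        (∀ z ∈ P, ∀ z2 ∈ P, C z = C z2 → ∀ f : V → ℝ,
          (∀ u v, G.Adj u v → u ∈ W → v ∈ W → u ∈ L → v ∈ L → |f u - f v| ≤ ρ u v) →
          |f z - f z2| ≤ |t z - t z2|) ∧
        PathStr (G.induce L) (fun a b => ρ a b) k {a | a.1 ∈ W ∧ a.1 ∉ P} := by
      intro L
      by_cases hL : ∃ v ∈ W, K v = L
      · obtain ⟨v, hv, rfl⟩ := hL
        obtain ⟨κ, C, t, P, hP, hC, ht, hrest⟩ := h v hv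
        refine ⟨fun a => {b | ∃ (hb : b ∈ K v) (ha : a ∈ K v), C ⟨b, hb⟩ = C ⟨a, ha⟩},
          fun a => if ha : a ∈ K v then t ⟨a, ha⟩ else 0, Subtype.val '' P, fun _ => ⟨?_, ?_, ?_, ?_⟩⟩
        · rintro a ⟨b, hb, rfl⟩
          exact ⟨hP hb, b.2⟩
        · intro a b hab haW hbW haL hbL
          have h1 := hC ⟨a, haL⟩ ⟨b, hbL⟩ hab haW hbW
          refine ⟨?_, ?_⟩
          · ext c
            constructor
            · rintro ⟨hc, _, h2⟩
              exact ⟨hc, hbL, h2.trans h1.1⟩
            · rintro ⟨hc, _, h2⟩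
              exact ⟨hc, haL, h2.trans h1.1.symm⟩
          · beta_reduce
            rw [dif_pos haL, dif_pos hbL]
            exact h1.2
        · rintro z ⟨z', hz', rfl⟩ z2 ⟨z2', hz2', rfl⟩ hCz f hf
          have hmem : z'.1 ∈ {b | ∃ (hb : b ∈ K v) (ha : z'.1 ∈ K v), C ⟨b, hb⟩ = C ⟨z'.1, ha⟩} :=
            ⟨z'.2, z'.2, rfl⟩
          beta_reduce at hCz
          rw [hCz] at hmem
          obtain ⟨_, _, h2⟩ := hmem
          have h3 := ht z' hz' z2' hz2' h2 (fun a => f a.1) (fun a b hab ha hb =>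
            hf a.1 b.1 hab ha hb a.2 b.2)
          beta_reduce
          rw [dif_pos z'.2, dif_pos z2'.2]
          exact h3
        · have e : {a : K v | a.1 ∈ W ∧ a.1 ∉ Subtype.val '' P} = {a : K v | a.1 ∈ W} \ P := by
            ext a
            constructor
            · rintro ⟨h1, h2⟩
              exact ⟨h1, fun h3 => h2 ⟨a, h3, rfl⟩⟩
            · rintro ⟨h1, h2⟩
              refine ⟨h1, ?_⟩
              rintro ⟨b, hb, hba⟩
              exact h2 ((Subtype.ext hba : b = a) ▸ hb)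
          rw [e]
          exact hrest
      · exact ⟨fun _ => ∅, fun _ => 0, ∅, fun h => absurd h hL⟩
    choose C t P hdat using hpick
    refine ⟨Set V × Set V, fun v => (K v, C (K v) v), fun v => t (K v) v,
      {z | z ∈ W ∧ z ∈ P (K z)}, fun z hz => hz.1, ?_, ?_, ?_⟩
    · intro u v huv hu hv
      have e := hK u v huv hu hv
      obtain ⟨-, h2, -, -⟩ := hdat (K u) ⟨u, hu, rfl⟩
      have h3 := h2 u v huv hu hv (hself u hu) (e ▸ hself v hv)
      beta_reduce
      rw [← e]
      exact ⟨Prod.ext rfl h3.1, h3.2⟩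
    · rintro z ⟨hz, hzP⟩ z2 ⟨hz2, hz2P⟩ hCz f hf
      beta_reduce at hCz ⊢
      have e : K z = K z2 := congrArg Prod.fst hCz
      have e2 : C (K z) z = C (K z2) z2 := congrArg Prod.snd hCz
      rw [← e] at e2 hz2P ⊢
      obtain ⟨-, -, h3, -⟩ := hdat (K z) ⟨z, hz, rfl⟩
      exact h3 z hzP z2 hz2P e2 f fun u v huv hu hv _ _ => hf u v huv hu hv
    · refine ih G ρ K _ (fun u v huv hu hv => hK u v huv hu.1 hv.1) (fun v hv => hself v hv.1)
        (fun v hv u hu huW => hcl v hv.1 u hu huW.1) (fun v hv => ?_)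
      obtain ⟨-, -, -, h4⟩ := hdat (K v) ⟨v, hv.1, rfl⟩
      have e : {a : K v | a.1 ∈ W \ {z | z ∈ W ∧ z ∈ P (K z)}} =
          {a : K v | a.1 ∈ W ∧ a.1 ∉ P (K v)} := by
        ext a
        constructor
        · rintro ⟨h1, h2⟩
          refine ⟨h1, fun h3 => h2 ⟨h1, ?_⟩⟩
          rw [hcl v hv.1 a.1 a.2 h1]
          exact h3
        · rintro ⟨h1, h2⟩
          refine ⟨h1, fun h3 => h2 ?_⟩
          have := h3.2
          rwa [hcl v hv.1 a.1 a.2 h1] at this
      rw [e]
      exact h4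

/-- shortest path decompositions are shortest path structures -/
theorem SPD.pathStr {k : ℕ} {V : Type} {G : SimpleGraph V} {ℓ : Sym2 V → ℝ} (h : SPD k G ℓ) :
    Finite V → G.Connected → (∀ e ∈ G.edgeSet, 0 < ℓ e) →
      PathStr G (fun u v => ℓ s(u, v)) k Set.univ := by
  induction h with
  | @path k V G ℓ x y q hq hcomp ih =>
    intro _ hc hℓ
    have hd := pathDist_isMet hc hℓ
    refine ⟨Unit, fun _ => (), fun v => pathDist G ℓ x v, {v | v ∈ q.support},
      fun v _ => trivial, ?_, ?_, ?_⟩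
    · intro u v huv _ _
      refine ⟨rfl, ?_⟩
      refine le_trans ?_ (pathDist_adj hℓ huv)
      have h1 := hd.tri x u v
      have h2 := hd.tri x v u
      rw [hd.symm v u] at h2
      rw [abs_le]; constructor <;> linarith
    · intro z hz z2 hz2 _ f hf
      exact (pathDist_gen hc (fun u v huv => hf u v huv trivial trivial) z z2).trans
        (geodesic_line hc hℓ q hq hz hz2)
    · refine pathStr_combine k G _ (fun v => compSet G {v | v ∈ q.support} v) _ ?_ ?_ ?_ ?_
      · intro u v huv hu hv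
        exact compSet_congr (ReachOff.adj hu.2 hv.2 huv)
      · intro v hv
        exact mem_compSet_self hv.2
      · intro v hv u hu _
        exact compSet_eq hu
      · intro v hv
        have h1 := ih v hv.2 (Subtype.finite) (comp_connected hv.2) (induce_pos hℓ _)
        have e : {a : compSet G {v | v ∈ q.support} v |
            a.1 ∈ Set.univ \ {v | v ∈ q.support}} = Set.univ := by
          ext a
          constructor
          · intro _
            trivial
          · intro _
            exact ⟨trivial, not_mem_of_mem_compSet a.2⟩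
        rw [e]
        exact h1

/-- shortest path structures give `Sep` -/
theorem sep_pathStr (k : ℕ) : ∀ {V : Type} [Finite V] (G : SimpleGraph V) (ρ : V → V → ℝ),
    IsMet ρ → ∀ W : Set V, PathStr G ρ k W →
    ∀ H : V → ℝ, (∀ x, 0 ≤ H x) → (∀ u v, G.Adj u v → |H u - H v| ≤ ρ u v) →
    (∀ v, 0 < H v ↔ v ∈ W) → Sep G ρ H k := by
  induction k with
  | zero =>
    intro V _ G ρ hρ W hW H hH hHl hHW
    have hW' : W = ∅ := hW
    refine Sep.zero hρ fun v => ?_
    by_contra hne
    have hpos : 0 < H v := lt_of_le_of_ne (hH v) (Ne.symm hne)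
    have h5 := (hHW v).1 hpos
    rw [hW'] at h5
    exact h5
  | succ k ih =>
    intro V _ G ρ hρ W hW H hH hHl hHW
    obtain ⟨κ, C, t, P, hPW, hC, htight, hrest⟩ := hW
    obtain ⟨H', h0, hle, hl, hP, hpos, hstep⟩ := level_step hρ hH hHl C t P
      (fun u v huv hu hv => hC u v huv ((hHW u).1 hu) ((hHW v).1 hv))
      (fun z hz z2 hz2 hCz f hf => htight z hz z2 hz2 hCz f
        (fun u v huv hu hv => hf u v huv ((hHW u).2 hu) ((hHW v).2 hv)))
    refine Sep.step hle hstep (ih G ρ hρ (W \ P) hrest H' h0 hl ?_)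
    intro v
    constructor
    · intro hv
      refine ⟨(hHW v).1 (hv.trans_le (hle v)), fun hvP => ?_⟩
      rw [hP v hvP] at hv
      exact lt_irrefl _ hv
    · rintro ⟨hv, hvP⟩
      exact hpos v ((hHW v).2 hv) hvP

/-- Connected graphs with `SPDLE G k` are line-Lipschitz with constant `1 / (32000 (k + 1))`. -/
theorem lineLip_spd {k : ℕ} {V : Type} [Finite V] {G : SimpleGraph V} (hc : G.Connected)
    (h : SPDLE G k) : LineLip G (1 / (32000 * (k + 1))) := by
  intro ρ hρ hgen
  change LineM ρ _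
  have hℓ : ∀ e ∈ G.edgeSet, 0 < lenOf ρ hρ.symm e := by
    intro e
    induction e using Sym2.ind with
    | _ u v =>
      intro he
      exact hρ.pos u v (SimpleGraph.Adj.ne he)
  have h1 := (h _ hℓ).pathStr inferInstance hc hℓ
  have e : (fun u v => lenOf ρ hρ.symm s(u, v)) = ρ := rfl
  rw [e] at h1
  obtain ⟨R, hR0, hR⟩ := exists_diam hρ
  have h2 := sep_pathStr k G ρ hρ Set.univ h1 (fun _ => R) (fun _ => hR0.le)
    (fun u v huv => by simpa only [sub_self, abs_zero] using hρ.nonneg u v)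
    (fun v => ⟨fun _ => trivial, fun _ => hR0⟩)
  have hk : 0 < k := by
    rcases Nat.eq_zero_or_pos k with rfl | hk
    · have h3 : (Set.univ : Set V) = ∅ := h1
      obtain ⟨v⟩ := hc.nonempty
      exact absurd (h3 ▸ (trivial : v ∈ (Set.univ : Set V)) : v ∈ (∅ : Set V)) (fun h => h)
    · exact hk
  have h4 := h2.line hρ hgen (fun x y => by linarith [hR x y]) hk
  refine h4.mono ?_ hρ.nonneg
  have hk' : (0 : ℝ) < k := by exact_mod_cast hk
  exact one_div_le_one_div_of_le (by positivity) (by linarith)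

/-- transfer from the only component of `G - ∅` -/
theorem lineLip_of_empty {V : Type} [Finite V] {G : SimpleGraph V} {u0 : V} {c : ℝ}
    (hc : G.Connected) (h : LineLip (G.induce (compSet G ∅ u0)) c) : LineLip G c := by
  intro ρ hρ hgen
  have hall : ∀ v, v ∈ compSet G ∅ u0 := by
    intro v
    obtain ⟨p⟩ := hc u0 v
    exact ⟨p, fun a _ h => h⟩
  obtain ⟨ι, hι, w, g, h1, h2, h3, h4⟩ := h (fun a b => ρ a.1 b.1)
    ⟨fun a => hρ.self _, fun a b hab => hρ.pos _ _ fun e => hab (Subtype.ext e),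
      fun a b => hρ.symm _ _, fun a b c => hρ.tri _ _ _⟩
    (fun f hf a b => hgen (fun v => f ⟨v, hall v⟩) (fun u v huv =>
      hf ⟨u, hall u⟩ ⟨v, hall v⟩ huv) a.1 b.1)
  exact ⟨ι, hι, w, fun i v => g i ⟨v, hall v⟩, h1, h2, fun i x y => h3 i ⟨x, hall x⟩ ⟨y, hall y⟩,
    fun x y => h4 ⟨x, hall x⟩ ⟨y, hall y⟩⟩

/-- the line property of a graph such that all components of `G - S` have `SPDLE _ w` -/
theorem lineLip_deletion_spd {w t : ℕ} {V : Type} [Finite V] {G : SimpleGraph V} {S : Finset V}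
    (hS : S.card ≤ t) (hT : ∀ u ∉ S, SPDLE (G.induce (compSet G {v | v ∈ S} u)) w) :
    LineLip G (1 / (48000 * (32000 * (w + 1) + Real.log (t + 2)))) := by
  classical
  intro ρ hρ hgen
  have hw : (0 : ℝ) ≤ w := Nat.cast_nonneg w
  have ht : (0 : ℝ) ≤ t := Nat.cast_nonneg t
  have hlt : 0 ≤ Real.log ((t : ℝ) + 2) := Real.log_nonneg (by linarith)
  cases isEmpty_or_nonempty V with
  | inl hV =>
    exact ⟨Unit, inferInstance, fun _ => 1, fun _ _ => 0, fun _ => zero_le_one, by simp,
      fun _ x => (hV.false x).elim, fun x => (hV.false x).elim⟩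
  | inr hV =>
    have hc : G.Connected := ⟨hgen.preconnected hρ⟩
    have hcomp : ∀ u ∉ S, LineLip (G.induce (compSet G {v | v ∈ S} u))
        (1 / (32000 * (w + 1))) := fun u hu => lineLip_spd (comp_connected hu) (hT u hu)
    rcases S.eq_empty_or_nonempty with rfl | hne
    · obtain ⟨u0⟩ := hc.nonempty
      have e0 : {v : V | v ∈ (∅ : Finset V)} = ∅ := by
        ext v
        simp
      have h1 := hcomp u0 (Finset.notMem_empty u0)
      rw [e0] at h1
      obtain h2 := lineLip_of_empty hc h1 ρ hρ hgen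
      change LineM ρ _ at h2
      change LineM ρ _
      refine h2.mono ?_ hρ.nonneg
      exact one_div_le_one_div_of_le (by positivity) (by nlinarith)
    · have hℓ : ∀ e ∈ G.edgeSet, 0 < lenOf ρ hρ.symm e := by
        intro e
        induction e using Sym2.ind with
        | _ u v =>
          intro he
          exact hρ.pos u v (SimpleGraph.Adj.ne he)
      have e := hgen.eq_pathDist hρ hc
      obtain ⟨v0, hv0⟩ := hne
      have hX : ({v : V | v ∈ S} : Set V).ncard ≤ t := by
        have : ({v : V | v ∈ S} : Set V) = (S : Set V) := rfl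
        rw [this, Set.ncard_coe_finset]
        exact hS
      have h := H873.line_apex (G := G) (ℓ := lenOf ρ hρ.symm) (X := {v | v ∈ S})
        (D := 32000 * (w + 1)) (by linarith) hc hℓ ⟨v0, hv0⟩ (fun u hu => by
          have hcc : (G.induce (compSet G {v | v ∈ S} u)).Connected := comp_connected hu
          have hpos' := induce_pos hℓ (compSet G {v | v ∈ S} u)
          exact hcomp u hu _ (pathDist_isMet hcc hpos') (fun f hf x y =>
            pathDist_gen hcc (fun a b hab => (hf a b hab).trans (pathDist_adj hpos' hab)) x y))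
      rw [e] at h
      change LineM ρ _
      refine h.mono ?_ hρ.nonneg
      have hlog : Real.log ((({v : V | v ∈ S} : Set V).ncard : ℝ) + 1) ≤ Real.log (t + 2) := by
        apply Real.log_le_log (by positivity)
        have : ((({v : V | v ∈ S} : Set V).ncard : ℝ)) ≤ t := by exact_mod_cast hX
        linarith
      have hlog0 : 0 ≤ Real.log ((({v : V | v ∈ S} : Set V).ncard : ℝ) + 1) :=
        Real.log_nonneg (by
          have : (0 : ℝ) ≤ (({v : V | v ∈ S} : Set V).ncard : ℝ) := Nat.cast_nonneg _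
          linarith)
      exact one_div_le_one_div_of_le (by positivity) (by linarith)

/-- the pieces are edge-exact with a constant of order `1 / (w + log t)` -/
theorem piece3_edgeExact : ∃ A : ℝ, 2 ≤ A ∧ ∀ (w t : ℕ) (V : Type) [Finite V]
    (G : SimpleGraph V), Piece3 w t V G → EdgeExact G (1 / (A * (w + Real.log (t + 2)))) := by
  obtain ⟨A, hA, h⟩ := pieceT_edgeExact
  refine ⟨A + 3 * 10 ^ 9, by linarith, fun w t V _ G hG => ?_⟩
  have hw : (0 : ℝ) ≤ w := Nat.cast_nonneg w
  have hL : (0.6931471803 : ℝ) ≤ Real.log (t + 2) := by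
    refine Real.log_two_gt_d9.le.trans (Real.log_le_log (by norm_num) ?_)
    have : (0 : ℝ) ≤ t := Nat.cast_nonneg t
    linarith
  have hwL : (1 : ℝ) / 2 ≤ w + Real.log (t + 2) := by linarith
  have key : PieceT w t V G ∨ ∃ S : Finset V, S.card ≤ t ∧
      ∀ u ∉ S, SPDLE (G.induce (compSet G {v | v ∈ S} u)) w := by
    rcases hG with hG | ⟨S, hS, hG | hG⟩
    · exact Or.inl (Or.inl hG)
    · exact Or.inl (Or.inr ⟨S, hS, hG⟩)
    · exact Or.inr ⟨S, hS, hG⟩
  rcases key with hG | ⟨S, hS, hG⟩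
  · refine (h w t V G hG).mono (one_div_le_one_div_of_le (by positivity) ?_)
    nlinarith
  · refine ((lineLip_deletion_spd hS hG).edgeExact).mono ?_
    refine one_div_le_one_div_of_le (by positivity) ?_
    have h3 : 0 ≤ A * (w + Real.log (t + 2)) := by positivity
    calc (48000 : ℝ) * (32000 * (w + 1) + Real.log (t + 2))
        ≤ 3 * 10 ^ 9 * (w + Real.log (t + 2)) := by nlinarith
      _ ≤ _ := by nlinarith

/-- **edge sums of the pieces** -/
theorem edgeSum_piece3 : ∃ A : ℝ, ∀ (w t : ℕ) (V : Type) [Finite V] (G : SimpleGraph V),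
    G.Connected → EdgeSumOf (Piece3 w t) G →
      EdgeIso G (A * (w + Real.log (t + 2))) ∧ DistortionLE G (A * (w + Real.log (t + 2))) := by
  obtain ⟨A, hA, h⟩ := piece3_edgeExact
  refine ⟨12000 * A, fun w t V _ G hc hE => ?_⟩
  have hw : (0 : ℝ) ≤ w := Nat.cast_nonneg w
  have hL : (0.6931471803 : ℝ) ≤ Real.log (t + 2) := by
    refine Real.log_two_gt_d9.le.trans (Real.log_le_log (by norm_num) ?_)
    have : (0 : ℝ) ≤ t := Nat.cast_nonneg t
    linarith
  have hwL : (1 : ℝ) / 2 ≤ w + Real.log (t + 2) := by linarith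
  have h1 : 1 ≤ A * (w + Real.log (t + 2)) := by nlinarith
  have h2 := edgeSum_edgeIso (Piece3 w t) h1 (fun V _ G hG hP => by
    have h3 := (h w t V G hP).edgeIso (by positivity) hG
    rwa [one_div_one_div] at h3) V G hc hE
  rw [mul_assoc]
  exact h2

/-- **Main theorem of stage 2** -/
theorem sharp_main3 : ∃ A : ℝ, ∀ (w t s : ℕ) (V : Type) [Finite V] (G : SimpleGraph V),
    G.Connected → ∀ X : Set V, X.ncard ≤ s →
    (∀ u ∉ X, EdgeSumOf (Piece3 w t) (G.induce (compSet G X u))) →
    DistortionLE G (A * (w + Real.log (t + 2) + Real.log (s + 2))) := by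
  obtain ⟨A0, h0⟩ := edgeSum_piece3
  obtain ⟨C, hC1, hC⟩ := apex_log'
  refine ⟨C * (max A0 1), fun w t s V _ G hc X hX h => ?_⟩
  have hw : (0 : ℝ) ≤ w := Nat.cast_nonneg w
  have hlt : 0 ≤ Real.log ((t : ℝ) + 2) := Real.log_nonneg (by
    have : (0 : ℝ) ≤ t := Nat.cast_nonneg t
    linarith)
  have hls : 0 ≤ Real.log ((s : ℝ) + 2) := Real.log_nonneg (by
    have : (0 : ℝ) ≤ s := Nat.cast_nonneg s
    linarith)
  have h1A : (1 : ℝ) ≤ max A0 1 := le_max_right _ _
  have hK : 0 ≤ max A0 1 * (w + Real.log (t + 2)) := by positivity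
  have h1 := hC (max A0 1 * (w + Real.log (t + 2))) hK s V G hc X hX (fun u hu => by
    refine ((h0 w t _ _ (comp_connected hu) (h u hu)).2).mono ?_
    exact mul_le_mul_of_nonneg_right (le_max_left _ _) (by linarith))
  refine h1.mono ?_
  rw [mul_assoc]
  refine mul_le_mul_of_nonneg_left ?_ (by linarith)
  nlinarith

end Vale.Agent.P235
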