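import Vale.Agent.P235.H536.Strip
import Vale.Agent.P235.H536.Spd2
import Vale.Agent.P235.H206.Rounds
import Vale.Agent.P235.H392.Complete

/-!
# All operations, iterated
-/

namespace Vale.Agent.P235

theorem allRounds_bounded (C0 : ℝ) (w j : ℕ) :
    ∃ C : ℝ, ∀ P : ∀ (V : Type), SimpleGraph V → Prop,
      (∀ (V : Type) [Finite V] (G : SimpleGraph V), G.Connected → P V G → DistortionLE G C0) →
      ∀ (V : Type) [Finite V] (G : SimpleGraph V), G.Connected →
        AllRounds P w j G → DistortionLE G C := by
  have hcomplete := complete_unbounded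
  choose N hN using hcomplete
  let f : ℝ → ℝ := fun C => max (max (compK (N C) C) (psK w C))
    (3328000 * (C + (1 : ℕ) * Real.log (w + 2)))
  let c : ℕ → ℝ := fun j => Nat.rec (max 1 C0) (fun _ C => f C) j
  have hc0 : c 0 = max 1 C0 := rfl
  have hcs : ∀ j, c (j + 1) = f (c j) := fun j => rfl
  have f1 : ∀ C, compK (N C) C ≤ f C := fun C => (le_max_left _ _).trans (le_max_left _ _)
  have f2 : ∀ C, psK w C ≤ f C := fun C => (le_max_right _ _).trans (le_max_left _ _)
  have f3 : ∀ C, 3328000 * (C + (1 : ℕ) * Real.log (w + 2)) ≤ f C := fun C => le_max_right _ _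
  have hc1 : ∀ j, 1 ≤ c j := by
    intro j
    induction j with
    | zero => exact le_max_left _ _
    | succ j ih =>
      rw [hcs]
      exact ih.trans ((le_compK _ ih).trans (f1 _))
  refine ⟨c j, fun P hP V _ G hconn hG => ?_⟩
  revert hconn
  have key : ∀ {j : ℕ} {V : Type} {G : SimpleGraph V}, AllRounds P w j G → Finite V →
      G.Connected → DistortionLE G (c j) := by
    intro j V G hG
    induction hG with
    | base hG =>
      intro _ hconn
      exact (hP _ _ hconn hG).mono (le_max_right _ _)
    | @lift j V G hG ih =>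
      intro hfin hconn
      exact (ih hfin hconn).mono ((le_compK (N (c j)) (hc1 j)).trans (f1 _))
    | @vertexSum j V G A B v hU hI hn hA hB ihA ihB =>
      intro hfin hconn
      have hcA := side_connected hconn hU hI hn
      have hcB : (G.induce B).Connected := side_connected hconn
        (by rw [Set.union_comm]; exact hU) (by rw [Set.inter_comm]; exact hI)
        (fun a b ha hb h => hn b a hb ha h.symm)
      exact distortion_vertexSum (one_pos.trans_le (hc1 j)) hconn hU hI hn
        (ihA inferInstance hcA) (ihB inferInstance hcB)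
    | @compose j V G X hX ht hk iht ihk =>
      intro hfin hconn
      have ht' := iht inferInstance (torso_connected hconn hX)
      exact (distortion_compose2 (hc1 j) hconn hX (fun u _ => attach_lt (hN (c j)) hconn hX ht' u)
        ht' fun u hu => ihk u hu inferInstance (comp_connected hu)).mono (f1 _)
    | @pathSum j n V G B hB hk ihk =>
      intro hfin hconn
      exact (distortion_pathSum (hc1 j) w V G hconn n B ⟨hB.cover, hB.edge, hB.conv⟩ hB.adh
        fun i u hu => ihk i u hu inferInstance (comp_connected (by simpa using hu))).mono (f2 _)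
    | @remove j V G X hX hk ihk =>
      intro hfin hconn
      exact (strip_distortion (fun _ G => DistortionLE G (c j)) (hc1 j) (fun _ _ _ _ h => h) w 1 V G
        hconn fun ℓ hℓ =>
        Strip.round (hX ℓ hℓ).1 (hX ℓ hℓ).2 fun u hu =>
          Strip.leaf (ihk ℓ hℓ u hu inferInstance (comp_connected hu))).mono (f3 _)
  exact key hG inferInstance

/-- rounds over edge sums -/
theorem strip_edgeSum : ∃ A : ℝ, ∀ (w t s k : ℕ) (V : Type) [Finite V] (G : SimpleGraph V),
    G.Connected →
    (∀ ℓ : Sym2 V → ℝ, (∀ e ∈ G.edgeSet, 0 < ℓ e) →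
      Strip (fun _ G => EdgeSumOf (Piece3 w t) G) s k G ℓ) →
    DistortionLE G (A * (w + Real.log (t + 2) + k * Real.log (s + 2))) := by
  obtain ⟨A, hA⟩ := edgeSum_piece3
  refine ⟨3328000 * (max A 0 + 2), fun w t s k V _ G hG h => ?_⟩
  have hl : (0.69 : ℝ) < Real.log 2 := by
    have := Real.log_two_gt_d9
    linarith
  have ht : Real.log 2 ≤ Real.log (t + 2) := Real.log_le_log (by norm_num) (by
    have : (0 : ℝ) ≤ t := Nat.cast_nonneg t
    linarith)
  have hs : Real.log 2 ≤ Real.log (s + 2) := Real.log_le_log (by norm_num) (by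
    have : (0 : ℝ) ≤ s := Nat.cast_nonneg s
    linarith)
  have hw : (0 : ℝ) ≤ w := Nat.cast_nonneg w
  have hk : (0 : ℝ) ≤ k := Nat.cast_nonneg k
  set B : ℝ := max A 0 + 2 with hB
  have hA0 : A ≤ B := (le_max_left A 0).trans (by linarith)
  have hB2 : 2 ≤ B := by
    have := le_max_right A 0
    linarith
  have hm : 0 ≤ w + Real.log (t + 2) := by linarith
  have hC : 1 ≤ B * (w + Real.log (t + 2)) := by nlinarith
  have h1 := strip_distortion (fun _ G => EdgeSumOf (Piece3 w t) G) hC (fun V _ G hG hE =>
    (hA w t V G hG hE).2.mono (mul_le_mul_of_nonneg_right hA0 hm)) s k V G hG h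
  refine h1.mono ?_
  have h2 : 0 ≤ (k : ℝ) * Real.log (s + 2) := mul_nonneg hk (by linarith)
  have h3 : (k : ℝ) * Real.log (s + 2) ≤ B * (k * Real.log (s + 2)) := by nlinarith
  linarith

end Vale.Agent.P235
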