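import Vale.Agent.P235.H536.Casc
import Vale.Agent.P235.Comp.Core

namespace Vale.Agent.P235

namespace Osc

section basic

variable {V : Type} {G : SimpleGraph V} {u : V → ℝ} {x y : V}

theorem osc_bdd : BddBelow
    {r | ∃ w : G.Walk x y, ∀ a ∈ w.support, ∀ b ∈ w.support, |u a - u b| ≤ r} :=
  ⟨0, by
    rintro r ⟨w, hw⟩
    simpa using hw x w.start_mem_support x w.start_mem_support⟩

theorem oscDist_nonneg : 0 ≤ oscDist G u x y :=
  Real.sInf_nonneg (by
    rintro r ⟨w, hw⟩
    simpa using hw x w.start_mem_support x w.start_mem_support)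

theorem oscDist_le (w : G.Walk x y) {r : ℝ}
    (h : ∀ a ∈ w.support, ∀ b ∈ w.support, |u a - u b| ≤ r) : oscDist G u x y ≤ r :=
  csInf_le osc_bdd ⟨w, h⟩

theorem oscDist_le_range {A B : ℝ} (hA : ∀ z, A ≤ u z) (hB : ∀ z, u z ≤ B) :
    oscDist G u x y ≤ B - A := by
  by_cases h : Nonempty (G.Walk x y)
  · obtain ⟨w⟩ := h
    refine oscDist_le w fun a _ b _ => ?_
    rw [abs_le]
    constructor <;> linarith [hA a, hA b, hB a, hB b]
  · have : {r | ∃ w : G.Walk x y, ∀ a ∈ w.support, ∀ b ∈ w.support, |u a - u b| ≤ r} = ∅ := by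
      ext r
      simp only [Set.mem_ofPred_eq, Set.mem_empty_iff_false, iff_false]
      rintro ⟨w, _⟩
      exact h ⟨w⟩
    unfold oscDist
    rw [this, Real.sInf_empty]
    linarith [hA x, hB x]

theorem le_oscDist [Finite V] (hc : G.Reachable x y) : |u x - u y| ≤ oscDist G u x y := by
  obtain ⟨w⟩ := hc
  obtain ⟨B, hB⟩ := (Set.finite_range u).bddAbove
  obtain ⟨A, hA⟩ := (Set.finite_range u).bddBelow
  refine le_csInf ⟨B - A, w, fun a _ b _ => ?_⟩ ?_
  · rw [abs_le]
    have h1 := hA ⟨a, rfl⟩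
    have h2 := hA ⟨b, rfl⟩
    have h3 := hB ⟨a, rfl⟩
    have h4 := hB ⟨b, rfl⟩
    constructor <;> linarith
  · rintro r ⟨w, hw⟩
    exact hw x w.start_mem_support y w.end_mem_support

theorem walk_of_reach {v : V → ℝ} {k : ℕ} (h : (lev G v k).Reachable x y) :
    ∃ w : G.Walk x y, ∀ a ∈ w.support, ⌊(2 : ℝ) ^ k * v a⌋ = ⌊(2 : ℝ) ^ k * v x⌋ := by
  obtain ⟨p⟩ := h
  induction p with
  | nil => exact ⟨.nil, by simp⟩
  | @cons a b c h p ih =>
    obtain ⟨w, hw⟩ := ih
    refine ⟨.cons h.1 w, fun z hz => ?_⟩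
    rw [SimpleGraph.Walk.support_cons, List.mem_cons] at hz
    rcases hz with rfl | hz
    · rfl
    · rw [hw z hz]; exact h.2.symm

/-- a component of a slab of height `H / 2 ^ k` has oscillation at most `H / 2 ^ k` -/
theorem cp_ne {v : V → ℝ} {H : ℝ} (hH : 0 < H) (hv : ∀ a b, u a - u b = H * (v a - v b)) {k : ℕ}
    (hρ : H / 2 ^ k < oscDist G u x y) : cp G v k x ≠ cp G v k y := by
  intro h
  obtain ⟨w, hw⟩ := walk_of_reach ((cp_eq G v).1 h)
  refine absurd (oscDist_le (u := u) w (r := H / 2 ^ k) fun a ha b hb => ?_) (not_le.2 hρ)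
  have h1 := Int.abs_sub_lt_one_of_floor_eq_floor ((hw a ha).trans (hw b hb).symm)
  rw [← mul_sub, abs_mul, abs_of_pos (by positivity : (0 : ℝ) < 2 ^ k)] at h1
  rw [hv, abs_mul, abs_of_pos hH, le_div_iff₀ (by positivity)]
  calc H * |v a - v b| * 2 ^ k = H * (2 ^ k * |v a - v b|) := by ring
    _ ≤ H * 1 := mul_le_mul_of_nonneg_left h1.le hH.le
    _ = H := mul_one H

/-- one of two grids has no boundary near `a` -/
theorem two_grids (a : ℝ) (k : ℕ) :
    1 / 6 ≤ min (Int.fract (2 ^ k * a)) (1 - Int.fract (2 ^ k * a)) ∨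
    1 / 6 ≤ min (Int.fract (2 ^ k * (a + 1 / 3))) (1 - Int.fract (2 ^ k * (a + 1 / 3))) := by
  by_contra hcon
  rw [not_or] at hcon
  have near : ∀ p : ℝ, ¬ 1 / 6 ≤ min (Int.fract p) (1 - Int.fract p) →
      ∃ m : ℤ, |p - m| < 1 / 6 := by
    intro p hp
    rw [le_min_iff, not_and_or, not_le, not_le] at hp
    have h0 := Int.floor_add_fract p
    have h1 := Int.fract_nonneg p
    have h2 := Int.fract_lt_one p
    rcases hp with hp | hp
    · refine ⟨⌊p⌋, ?_⟩
      rw [abs_lt]
      constructor <;> linarith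
    · refine ⟨⌊p⌋ + 1, ?_⟩
      push_cast
      rw [abs_lt]
      constructor <;> linarith
  obtain ⟨m, hm⟩ := near _ hcon.1
  obtain ⟨m', hm'⟩ := near _ hcon.2
  rw [abs_lt] at hm hm'
  have h1 : ((2 ^ k - 3 * (m' - m) : ℤ) : ℝ) < 1 := by
    push_cast
    linarith [hm.1, hm.2, hm'.1, hm'.2]
  have h2 : (-1 : ℝ) < ((2 ^ k - 3 * (m' - m) : ℤ) : ℝ) := by
    push_cast
    linarith [hm.1, hm.2, hm'.1, hm'.2]
  have h3 : (2 ^ k - 3 * (m' - m) : ℤ) < 1 := by exact_mod_cast h1
  have h4 : (-1 : ℤ) < 2 ^ k - 3 * (m' - m) := by exact_mod_cast h2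
  have h5 : (3 : ℤ) ∣ 2 ^ k := ⟨m' - m, by omega⟩
  have h6 := (Int.prime_three.dvd_of_dvd_pow h5)
  omega

end basic

variable {V : Type} [Fintype V] [DecidableEq V] {G : SimpleGraph V} {u v : V → ℝ} {x y : V}

theorem isL1_E (n : ℕ) : ∀ (k : ℕ) (Φ : (V → ℝ) → V → ℝ),
    IsL1 (fun x y => E G v n k fun g => |Φ g x - Φ g y|) := by
  induction n with
  | zero => intro k Φ; exact isL1_line (Φ (T v k))
  | succ n ih =>
    intro k Φ
    have h := (IsL1.sum (Finset.univ : Finset (V → Bool)) _ fun β _ =>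
      ih (k + 1) fun g => Φ (stp G v k β g)).smul (a := (Fintype.card (V → Bool) : ℝ)⁻¹)
      (by positivity)
    refine h.congr fun x y => ?_
    rw [E_succ, av, div_eq_inv_mul]

theorem isL1_D (n k : ℕ) : IsL1 (D G v n k) := isL1_E n k fun g => g

omit [Fintype V] [DecidableEq V] in
theorem T_zero (h0 : ∀ z, 0 ≤ v z) (h1 : ∀ z, v z < 1) (z : V) : T v 0 z = v z := by
  unfold T
  rw [pow_zero, one_mul, Int.fract_eq_self]
  exact ⟨h0 z, h1 z⟩

theorem grid_upper (h0 : ∀ z, 0 ≤ v z) (h1 : ∀ z, v z < 1) (n : ℕ) (h : G.Adj x y) :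
    D G v n 0 x y ≤ |v x - v y| := by
  have hf : ∀ z, ⌊(2 : ℝ) ^ 0 * v z⌋ = 0 := fun z => by
    rw [pow_zero, one_mul, Int.floor_eq_zero_iff]
    exact ⟨h0 z, h1 z⟩
  have := D_edge G v n 0 x y h (by rw [hf, hf])
  rwa [T_zero h0 h1, T_zero h0 h1] at this

theorem grid_lower {H : ℝ} (hH : 0 < H) (hv : ∀ a b, u a - u b = H * (v a - v b)) {k n : ℕ}
    (hk : k < n) (hρ : H / 2 ^ k < oscDist G u x y) (hb : 1 / 6 ≤ bd v k x)
    (hxy : |u x - u y| < H / 2 ^ k / 6) : H / 2 ^ k / 6 ≤ H * D G v n 0 x y := by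
  have h2 : (0 : ℝ) < 2 ^ k := by positivity
  have hd : |(2 : ℝ) ^ k * v x - 2 ^ k * v y| < 1 / 6 := by
    rw [hv, abs_mul, abs_of_pos hH] at hxy
    rw [← mul_sub, abs_mul, abs_of_pos h2]
    have : H / 2 ^ k / 6 = H * (1 / 6 / 2 ^ k) := by field_simp
    rw [this] at hxy
    have := lt_of_mul_lt_mul_left hxy hH.le
    rw [lt_div_iff₀ h2] at this
    linarith
  have hs : ⌊(2 : ℝ) ^ (0 + k) * v x⌋ = ⌊(2 : ℝ) ^ (0 + k) * v y⌋ := by
    rw [zero_add]
    symm
    rw [Int.floor_eq_iff]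
    have h3 := Int.floor_add_fract ((2 : ℝ) ^ k * v x)
    unfold bd at hb
    rw [le_min_iff] at hb
    unfold T at hb
    rw [abs_lt] at hd
    constructor <;> linarith [hb.1, hb.2, hd.1, hd.2]
  have h4 := D_lower G v k n 0 hk hs (by rw [zero_add]; exact cp_ne hH hv hρ)
  rw [zero_add] at h4
  have h5 : 1 / 6 ≤ 2 ^ k * D G v n 0 x y := hb.trans h4
  rw [div_div, div_le_iff₀ (by positivity)]
  nlinarith [mul_le_mul_of_nonneg_left h5 hH.le]

end Osc

open Osc in
/-- **Sandwich theorem.** For every function `u` on the vertices of a finite graph there is an `L₁`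
semimetric which is at most `|u x - u y|` on the edges and at least `oscDist / 24`. -/
theorem osc_sandwich {V : Type} [Finite V] (G : SimpleGraph V) (u : V → ℝ) :
    ∃ F : V → V → ℝ, IsL1 F ∧ (∀ x y, G.Adj x y → F x y ≤ |u x - u y|) ∧
      ∀ x y, oscDist G u x y ≤ 24 * F x y := by
  classical
  have : Fintype V := Fintype.ofFinite V
  obtain ⟨B, hB⟩ := (Set.finite_range u).bddAbove
  obtain ⟨A, hA⟩ := (Set.finite_range u).bddBelow
  replace hA : ∀ z, A ≤ u z := fun z => hA ⟨z, rfl⟩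
  replace hB : ∀ z, u z ≤ B := fun z => hB ⟨z, rfl⟩
  set H : ℝ := 3 * |B - A| + 3 with hHdef
  have hBA := abs_nonneg (B - A)
  have hBA' := le_abs_self (B - A)
  have hH : 0 < H := by positivity
  set v : V → ℝ := fun z => (u z - A) / H with hv
  have hv0 : ∀ z, 0 ≤ v z := fun z => div_nonneg (by linarith [hA z]) hH.le
  have hv1 : ∀ z, v z < 1 / 3 := fun z => by
    rw [hv]
    simp only
    rw [div_lt_iff₀ hH]
    linarith [hB z]
  set v' : V → ℝ := fun z => v z + 1 / 3 with hv'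
  have hv0' : ∀ z, 0 ≤ v' z := fun z => by simp only [hv']; linarith [hv0 z]
  have hv1' : ∀ z, v' z < 1 := fun z => by simp only [hv']; linarith [hv1 z]
  have e : ∀ a b, u a - u b = H * (v a - v b) := fun a b => by
    simp only [hv]; field_simp; ring
  have e' : ∀ a b, u a - u b = H * (v' a - v' b) := fun a b => by
    rw [e]; simp only [hv']; ring
  -- the scales
  have hscale : ∀ x y, ∃ k : ℕ, 0 < oscDist G u x y →
      H / 2 ^ k < oscDist G u x y ∧ oscDist G u x y ≤ 2 * (H / 2 ^ k) := by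
    intro x y
    by_cases h : 0 < oscDist G u x y
    · have hex : ∃ k : ℕ, H / 2 ^ k < oscDist G u x y := by
        obtain ⟨k, hk⟩ := exists_nat_gt (H / oscDist G u x y)
        refine ⟨k, ?_⟩
        rw [div_lt_iff₀ (by positivity)]
        rw [div_lt_iff₀ h] at hk
        have : (k : ℝ) ≤ 2 ^ k := by exact_mod_cast (Nat.lt_two_pow_self (n := k)).le
        nlinarith
      classical
      refine ⟨Nat.find hex, fun _ => ⟨Nat.find_spec hex, ?_⟩⟩
      have hne : Nat.find hex ≠ 0 := by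
        intro h0
        have := Nat.find_spec hex
        rw [h0, pow_zero, div_one] at this
        have h1 := oscDist_le_range (G := G) (x := x) (y := y) hA hB
        linarith
      obtain ⟨m, hm⟩ := Nat.exists_eq_succ_of_ne_zero hne
      have := Nat.find_min hex (m := m) (by omega)
      rw [not_lt] at this
      rw [hm, Nat.succ_eq_add_one, pow_succ]
      have e2 : 2 * (H / (2 ^ m * 2)) = H / 2 ^ m := by field_simp
      rw [e2]
      exact this
    · exact ⟨0, fun h' => absurd h' h⟩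
  choose κ hκ using hscale
  obtain ⟨N, hN⟩ := (Set.finite_range fun p : V × V => κ p.1 p.2).bddAbove
  have hκN : ∀ x y, κ x y < N + 1 := fun x y => Nat.lt_succ_of_le (hN ⟨(x, y), rfl⟩)
  have hL := ((isL1_D (G := G) (v := v) (N + 1) 0).smul (a := H / 2) (by positivity)).add
    ((isL1_D (G := G) (v := v') (N + 1) 0).smul (a := H / 2) (by positivity))
  refine ⟨_, hL, fun x y hxy => ?_, fun x y => ?_⟩
  · have h1 := grid_upper hv0 (fun z => by linarith [hv1 z]) (N + 1) hxy
    have h2 := grid_upper hv0' hv1' (N + 1) hxy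
    have h3 : v' x - v' y = v x - v y := by simp only [hv']; ring
    rw [h3] at h2
    rw [e, abs_mul, abs_of_pos hH]
    nlinarith
  · by_cases hρ : 0 < oscDist G u x y
    · obtain ⟨hk1, hk2⟩ := hκ x y hρ
      have n1 := (isL1_D (G := G) (v := v) (N + 1) 0).nonneg x y
      have n2 := (isL1_D (G := G) (v := v') (N + 1) 0).nonneg x y
      have m1 := mul_nonneg hH.le n1
      have m2 := mul_nonneg hH.le n2
      by_cases hu : |u x - u y| < H / 2 ^ κ x y / 6
      · rcases two_grids (v x) (κ x y) with hb | hb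
        · have := grid_lower hH e (hκN x y) hk1 hb hu
          linarith
        · have := grid_lower hH e' (hκN x y) hk1 hb hu
          linarith
      · rw [not_lt] at hu
        have h1 := D_ge G v (N + 1) 0 x y
        have h2 := D_ge G v' (N + 1) 0 x y
        rw [T_zero hv0 (fun z => by linarith [hv1 z]), T_zero hv0 (fun z => by linarith [hv1 z])]
          at h1
        rw [T_zero hv0' hv1', T_zero hv0' hv1'] at h2
        have h3 : v' x - v' y = v x - v y := by simp only [hv']; ring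
        rw [h3] at h2
        rw [e, abs_mul, abs_of_pos hH] at hu
        have h4 := mul_le_mul_of_nonneg_left h1 hH.le
        have h5 := mul_le_mul_of_nonneg_left h2 hH.le
        linarith
    · have := hL.nonneg x y
      linarith

open Osc in
theorem osc_of_embeds {V : Type} [Finite V] {G : SimpleGraph V} (hc : G.Connected)
    {ℓ : Sym2 V → ℝ} (hℓ : ∀ e ∈ G.edgeSet, 0 < ℓ e) {C : ℝ}
    (h : EmbedsL1 (pathDist G ℓ) C) : OscEmb G ℓ C := by
  classical
  obtain ⟨ρ, hρ, h1, h2, -⟩ := h.toL1S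
  have hadj : ∀ x y, G.Adj x y → pathDist G ℓ x y ≤ ℓ s(x, y) := by
    intro x y hxy
    refine (ciInf_le ⟨0, ?_⟩ (SimpleGraph.Walk.cons hxy .nil)).trans ?_
    · rintro _ ⟨w, rfl⟩; exact walk_nonneg hℓ w
    · simp
  by_cases hC : 0 < C
  · obtain ⟨ι, _, w, c, hw, hF⟩ := hρ.isL1
    let eq := Fintype.equivFin ι
    refine ⟨Fintype.card ι, fun i x => w (eq.symm i) / C * (if c (eq.symm i) x then 1 else 0), ?_⟩
    have key : ∀ x y, ∑ i, |w (eq.symm i) / C * (if c (eq.symm i) x then 1 else 0) -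
        w (eq.symm i) / C * (if c (eq.symm i) y then 1 else 0)| = ρ x y / C := by
      intro x y
      rw [Equiv.sum_comp eq.symm (fun i => |w i / C * (if c i x then 1 else 0) -
        w i / C * (if c i y then 1 else 0)|), hF, Finset.sum_div]
      refine Finset.sum_congr rfl fun i _ => ?_
      rw [← mul_sub, abs_mul, abs_of_nonneg (div_nonneg (hw i) hC.le)]
      cases c i x <;> cases c i y <;> simp
    refine ⟨fun x y hxy => ?_, fun x y => ?_⟩
    · rw [key, div_le_iff₀ hC]
      calc ρ x y ≤ C * pathDist G ℓ x y := h2 x y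
        _ ≤ C * ℓ s(x, y) := mul_le_mul_of_nonneg_left (hadj x y hxy) hC.le
        _ = _ := mul_comm _ _
    · calc pathDist G ℓ x y ≤ ρ x y := h1 x y
        _ = C * (ρ x y / C) := by field_simp
        _ ≤ _ := by
          rw [← key]
          refine mul_le_mul_of_nonneg_left (Finset.sum_le_sum fun i _ => ?_) hC.le
          exact le_oscDist (u := fun x => w (eq.symm i) / C * (if c (eq.symm i) x then 1 else 0)) (hc x y)
  · refine ⟨0, fun i => i.elim0, fun x y hxy => ?_, fun x y => ?_⟩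
    · simp only [Finset.univ_eq_empty, Finset.sum_empty]
      exact (hℓ _ hxy).le
    · simp only [Finset.univ_eq_empty, Finset.sum_empty, mul_zero]
      have h3 := (h1 x y).trans (h2 x y)
      have h4 := pathDist_nonneg hℓ x y
      nlinarith

open Osc in
theorem embeds_of_osc {V : Type} [Finite V] {G : SimpleGraph V} (hc : G.Connected)
    {ℓ : Sym2 V → ℝ} (hℓ : ∀ e ∈ G.edgeSet, 0 < ℓ e) {C : ℝ}
    (h : OscEmb G ℓ C) : EmbedsL1 (pathDist G ℓ) (24 * C) := by
  classical
  obtain ⟨n, u, h1, h2⟩ := h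
  choose F hF hF1 hF2 using fun i => osc_sandwich G (u i)
  have hS := IsL1.sum Finset.univ F fun i _ => hF i
  have hle : ∀ x y, ∑ i, F i x y ≤ pathDist G ℓ x y := by
    intro x y
    have := pathDist_semi (ρ := fun x y => ∑ i, F i x y) (K := 1) (ℓ := ℓ) hc one_pos
      (fun x => hS.self x) (fun x y z => hS.tri x y z) (fun a b hab => by
        rw [one_mul]
        exact (Finset.sum_le_sum fun i _ => hF1 i a b hab).trans (h1 a b hab)) x y
    rwa [one_mul] at this
  by_cases hC : 0 < C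
  · refine (hS.smul (a := 24 * C) (by positivity)).embeds (fun x y => ?_) fun x y => ?_
    · calc pathDist G ℓ x y ≤ C * ∑ i, oscDist G (u i) x y := h2 x y
        _ ≤ C * ∑ i, 24 * F i x y :=
          mul_le_mul_of_nonneg_left (Finset.sum_le_sum fun i _ => hF2 i x y) hC.le
        _ = 24 * C * ∑ i, F i x y := by rw [← Finset.mul_sum]; ring
    · exact mul_le_mul_of_nonneg_left (hle x y) (by positivity)
  · have hz : ∀ x y, pathDist G ℓ x y = 0 := fun x y => by
      refine le_antisymm ?_ (pathDist_nonneg hℓ x y)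
      have h3 : 0 ≤ ∑ i, oscDist G (u i) x y := Finset.sum_nonneg fun i _ => oscDist_nonneg
      have := h2 x y
      nlinarith
    refine (IsL1.zero : IsL1 (fun _ _ : V => (0 : ℝ))).embeds (fun x y => ?_) fun x y => ?_
    · rw [hz]
    · rw [hz, mul_zero]

/-- **Oscillation criterion.** The `L₁`-distortion of a path metric is, up to the factor `24`, the
least `C` such that `OscEmb G ℓ C`. -/
theorem osc_criterion : ∀ (V : Type) [Finite V] (G : SimpleGraph V), G.Connected →
    ∀ ℓ : Sym2 V → ℝ, (∀ e ∈ G.edgeSet, 0 < ℓ e) → ∀ C : ℝ,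
      (EmbedsL1 (pathDist G ℓ) C → OscEmb G ℓ C) ∧
      (OscEmb G ℓ C → EmbedsL1 (pathDist G ℓ) (24 * C)) :=
  fun _ _ _ hc _ hℓ _ => ⟨osc_of_embeds hc hℓ, embeds_of_osc hc hℓ⟩

end Vale.Agent.P235
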