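import Vale.Agent.P235.H873.FaceDefs

namespace Vale.Agent.P235

/-- `X` has at most `t` vertices, or is the vertex set of a shortest path for the edge lengths `ℓ`,
or consists of the vertices of a crossless list. -/
def Removable {V : Type} (G : SimpleGraph V) (ℓ : Sym2 V → ℝ) (t : ℕ) (X : Set V) : Prop :=
  X.ncard ≤ t ∨
  (∃ (x y : V) (q : G.Walk x y), (q.edges.map ℓ).sum = pathDist G ℓ x y ∧
    X = {v | v ∈ q.support}) ∨
  ∃ (n : ℕ) (x : Fin n → V), Crossless G x ∧ X = Set.range x

/-- `Strip P t k G ℓ`: at most `k` rounds, each of which deletes from every component a nonempty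
`Removable` set of this component, leave components in the class `P`. `leaf`: a graph of `P` needs
no round. `round`: all components of `G - X`, with the lengths of `G`, need at most `k` further
rounds. -/
inductive Strip (P : ∀ (V : Type), SimpleGraph V → Prop) (t : ℕ) :
    ℕ → ∀ {V : Type}, SimpleGraph V → (Sym2 V → ℝ) → Prop
  | leaf {k : ℕ} {V : Type} {G : SimpleGraph V} {ℓ : Sym2 V → ℝ} : P V G → Strip P t k G ℓ
  | round {k : ℕ} {V : Type} {G : SimpleGraph V} {ℓ : Sym2 V → ℝ} {X : Set V} : X.Nonempty →
      Removable G ℓ t X →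
      (∀ u ∉ X, Strip P t k (G.induce (compSet G X u)) (fun e => ℓ (e.map Subtype.val))) →
      Strip P t (k + 1) G ℓ

/-- `AllRounds P w j G`: the base graphs (round `0`) are those of the class `P`; every round is
closed under gluing two graphs at one vertex; and `G` is allowed in round `j + 1` in each of these
cases. `compose`: for some nonempty vertex set `X` the torso of `X` and all components of `G - X`
are allowed in round `j`. `pathSum`: `G` has a path decomposition with bags of any size in which
consecutive bags share at most `w` vertices, and all components of the subgraph induced on any bag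
are allowed in round `j`. `remove`: for all positive edge lengths `ℓ` some nonempty set `X ℓ` with
`Removable G ℓ w (X ℓ)` is such that all components of `G - X ℓ` are allowed in round `j`. -/
inductive AllRounds (P : ∀ (V : Type), SimpleGraph V → Prop) (w : ℕ) :
    ℕ → ∀ {V : Type}, SimpleGraph V → Prop
  | base {V : Type} {G : SimpleGraph V} : P V G → AllRounds P w 0 G
  | lift {j : ℕ} {V : Type} {G : SimpleGraph V} : AllRounds P w j G → AllRounds P w (j + 1) G
  | vertexSum {j : ℕ} {V : Type} {G : SimpleGraph V} {A B : Set V} {v : V} :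
      A ∪ B = Set.univ → A ∩ B = {v} → (∀ a b, a ∉ B → b ∉ A → ¬ G.Adj a b) →
      AllRounds P w j (G.induce A) → AllRounds P w j (G.induce B) → AllRounds P w j G
  | compose {j : ℕ} {V : Type} {G : SimpleGraph V} {X : Set V} : X.Nonempty →
      AllRounds P w j (torso G X) → (∀ u ∉ X, AllRounds P w j (G.induce (compSet G X u))) →
      AllRounds P w (j + 1) G
  | pathSum {j n : ℕ} {V : Type} {G : SimpleGraph V} {B : Fin n → Set V} : PathDec G w B →
      (∀ i, ∀ u ∈ B i, AllRounds P w j (G.induce (compSet G (B i)ᶜ u))) → AllRounds P w (j + 1) G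
  | remove {j : ℕ} {V : Type} {G : SimpleGraph V} {X : (Sym2 V → ℝ) → Set V} :
      (∀ ℓ : Sym2 V → ℝ, (∀ e ∈ G.edgeSet, 0 < ℓ e) → (X ℓ).Nonempty ∧ Removable G ℓ w (X ℓ)) →
      (∀ ℓ : Sym2 V → ℝ, (∀ e ∈ G.edgeSet, 0 < ℓ e) → ∀ u ∉ X ℓ,
        AllRounds P w j (G.induce (compSet G (X ℓ) u))) → AllRounds P w (j + 1) G

end Vale.Agent.P235
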