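import Vale.Agent.P235.H536.OscDefs

namespace Vale.Agent.P235.Osc

open Finset

/-! ### averages -/

noncomputable def av {α : Type} [Fintype α] (φ : α → ℝ) : ℝ := (∑ a, φ a) / Fintype.card α

section av

variable {α : Type} [Fintype α] [Nonempty α]

theorem card_pos' : (0 : ℝ) < Fintype.card α := by exact_mod_cast Fintype.card_pos

theorem av_const (c : ℝ) : av (fun _ : α => c) = c := by
  have := card_pos' (α := α)
  simp only [av, sum_const, card_univ, nsmul_eq_mul]
  field_simp

omit [Nonempty α] in
theorem av_add (φ ψ : α → ℝ) : av (fun a => φ a + ψ a) = av φ + av ψ := by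
  simp only [av, sum_add_distrib, add_div]

omit [Nonempty α] in
theorem av_sub (φ ψ : α → ℝ) : av (fun a => φ a - ψ a) = av φ - av ψ := by
  simp only [av, sum_sub_distrib, sub_div]

theorem av_mono {φ ψ : α → ℝ} (h : ∀ a, φ a ≤ ψ a) : av φ ≤ av ψ :=
  div_le_div_of_nonneg_right (sum_le_sum fun a _ => h a) (card_pos' (α := α)).le

end av

section coin

variable {S : Type} [Fintype S] [DecidableEq S]

/-- flipping the coin at `s` -/
def flip (s : S) : (S → Bool) ≃ (S → Bool) :=
  Function.Involutive.toPerm (fun β => Function.update β s (!β s)) (by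
    intro β
    simp)

omit [Fintype S] in
theorem flip_self (s : S) (β : S → Bool) : flip s β s = !β s := by
  simp [flip, Function.Involutive.toPerm]

omit [Fintype S] in
theorem flip_ne {s s' : S} (h : s' ≠ s) (β : S → Bool) : flip s β s' = β s' := by
  simp [flip, Function.Involutive.toPerm, h]

theorem av_flip (s : S) (φ : (S → Bool) → ℝ) : av (fun β => φ (flip s β)) = av φ := by
  unfold av
  rw [Equiv.sum_comp (flip s) φ]

theorem av_coin (ψ : Bool → ℝ) (s : S) :
    av (fun β : S → Bool => ψ (β s)) = (ψ true + ψ false) / 2 := by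
  have h1 := av_flip s (fun β => ψ (β s))
  have h2 : av (fun β : S → Bool => ψ (β s)) + av (fun β : S → Bool => ψ (flip s β s)) =
      ψ true + ψ false := by
    rw [← av_add, ← av_const (α := S → Bool) (ψ true + ψ false)]
    congr 1
    funext β
    rw [flip_self]
    cases β s <;> simp [add_comm]
  linarith

theorem av_two (A B : Bool → ℝ) {s s' : S} (h : s' ≠ s) :
    |A true - A false| / 2 ≤ av (fun β : S → Bool => |A (β s) - B (β s')|) := by
  have h1 := av_flip s (fun β => |A (β s) - B (β s')|)
  have h2 : |A true - A false| ≤ av (fun β : S → Bool => |A (β s) - B (β s')|) +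
      av (fun β : S → Bool => |A (flip s β s) - B (flip s β s')|) := by
    rw [← av_add, ← av_const (α := S → Bool) (|A true - A false|)]
    refine av_mono fun β => ?_
    rw [flip_self, flip_ne h]
    have h3 : |A true - A false| = |A (β s) - A (!β s)| := by
      cases β s
      · simp [abs_sub_comm]
      · simp
    rw [h3]
    calc |A (β s) - A (!β s)| ≤ |A (β s) - B (β s')| + |B (β s') - A (!β s)| :=
          abs_sub_le _ _ _
      _ = _ := by rw [abs_sub_comm (B (β s'))]
  linarith

end coin

/-! ### binary digits -/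

theorem floor_two (a : ℝ) : ⌊2 * a⌋ = 2 * ⌊a⌋ + if Int.fract a < 1 / 2 then 0 else 1 := by
  have h0 := Int.floor_add_fract a
  have h1 := Int.fract_nonneg a
  have h2 := Int.fract_lt_one a
  split_ifs with h
  · rw [Int.floor_eq_iff]
    push_cast
    constructor <;> linarith
  · rw [Int.floor_eq_iff]
    push_cast
    rw [not_lt] at h
    constructor <;> linarith

theorem fract_two (a : ℝ) : Int.fract (2 * a) =
    if Int.fract a < 1 / 2 then 2 * Int.fract a else 2 * Int.fract a - 1 := by
  have h0 := Int.floor_add_fract a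
  have h3 := floor_two a
  have h4 : Int.fract (2 * a) = 2 * a - ⌊2 * a⌋ := rfl
  rw [h4, h3]
  split_ifs with h
  · push_cast
    linarith
  · push_cast
    linarith

variable {V : Type} (G : SimpleGraph V) (v : V → ℝ)

/-- the part of `G` inside the slabs of level `k` -/
def lev (k : ℕ) : SimpleGraph V where
  Adj a b := G.Adj a b ∧ ⌊2 ^ k * v a⌋ = ⌊2 ^ k * v b⌋
  symm := ⟨fun _ _ h => ⟨h.1.symm, h.2.symm⟩⟩
  loopless := ⟨fun _ h => h.1.ne rfl⟩

/-- a representative of the component of `x` in its slab of level `k` -/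
noncomputable def cp (k : ℕ) (x : V) : V := Quot.out ((lev G v k).connectedComponentMk x)

theorem cp_eq {k : ℕ} {x y : V} : cp G v k x = cp G v k y ↔ (lev G v k).Reachable x y := by
  rw [← SimpleGraph.ConnectedComponent.eq]
  constructor
  · intro h
    have h1 := Quot.out_eq ((lev G v k).connectedComponentMk x)
    have h2 := Quot.out_eq ((lev G v k).connectedComponentMk y)
    rw [← h1, ← h2]
    exact congrArg _ h
  · intro h
    unfold cp
    rw [h]

/-- position in the slab of level `k` -/
noncomputable def T (k : ℕ) (x : V) : ℝ := Int.fract (2 ^ k * v x)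

theorem T_nonneg (k : ℕ) (x : V) : 0 ≤ T v k x := Int.fract_nonneg _

theorem T_lt (k : ℕ) (x : V) : T v k x < 1 := Int.fract_lt_one _

theorem T_succ (k : ℕ) (x : V) :
    T v (k + 1) x = if T v k x < 1 / 2 then 2 * T v k x else 2 * T v k x - 1 := by
  have : (2 : ℝ) ^ (k + 1) * v x = 2 * (2 ^ k * v x) := by ring
  unfold T
  rw [this, fract_two]

theorem slab_succ (k : ℕ) (x : V) :
    ⌊(2 : ℝ) ^ (k + 1) * v x⌋ = 2 * ⌊(2 : ℝ) ^ k * v x⌋ + if T v k x < 1 / 2 then 0 else 1 := by
  have : (2 : ℝ) ^ (k + 1) * v x = 2 * (2 ^ k * v x) := by ring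
  unfold T
  rw [this, floor_two]

theorem slab_down {k : ℕ} {x y : V} (h : ⌊(2 : ℝ) ^ (k + 1) * v x⌋ = ⌊(2 : ℝ) ^ (k + 1) * v y⌋) :
    ⌊(2 : ℝ) ^ k * v x⌋ = ⌊(2 : ℝ) ^ k * v y⌋ ∧ (T v k x < 1 / 2 ↔ T v k y < 1 / 2) := by
  rw [slab_succ, slab_succ] at h
  split_ifs at h with h1 h2 h2
  · exact ⟨by omega, by tauto⟩
  · omega
  · omega
  · exact ⟨by omega, by tauto⟩

theorem slab_up {k : ℕ} {x y : V} (h : ⌊(2 : ℝ) ^ k * v x⌋ = ⌊(2 : ℝ) ^ k * v y⌋)
    (h' : T v k x < 1 / 2 ↔ T v k y < 1 / 2) :
    ⌊(2 : ℝ) ^ (k + 1) * v x⌋ = ⌊(2 : ℝ) ^ (k + 1) * v y⌋ := by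
  rw [slab_succ, slab_succ, h]
  simp only [h']

theorem slab_le {j k : ℕ} {x y : V}
    (h : ⌊(2 : ℝ) ^ (k + j) * v x⌋ = ⌊(2 : ℝ) ^ (k + j) * v y⌋) :
    ⌊(2 : ℝ) ^ k * v x⌋ = ⌊(2 : ℝ) ^ k * v y⌋ := by
  induction j with
  | zero => exact h
  | succ j ih => exact ih (slab_down v h).1

/-! ### the random cascade -/

variable [Fintype V] [DecidableEq V]

/-- one step of the cascade -/
noncomputable def stp (k : ℕ) (β : V → Bool) (g : V → ℝ) (x : V) : ℝ :=
  if T v k x < 1 / 2 then (if β (cp G v k x) then g x else 0)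
  else (if β (cp G v k x) then 1 else g x)

/-- expectation for the cascade with `n` steps starting at level `k` -/
noncomputable def E : ℕ → ℕ → ((V → ℝ) → ℝ) → ℝ
  | 0, k, φ => φ (T v k)
  | n + 1, k, φ => av fun β : V → Bool => E n (k + 1) fun g => φ (stp G v k β g)

theorem E_zero (k : ℕ) (φ : (V → ℝ) → ℝ) : E G v 0 k φ = φ (T v k) := rfl

theorem E_succ (n k : ℕ) (φ : (V → ℝ) → ℝ) :
    E G v (n + 1) k φ = av fun β : V → Bool => E G v n (k + 1) fun g => φ (stp G v k β g) := rfl

omit [Fintype V] [DecidableEq V] in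
theorem stp_mem {k : ℕ} {β : V → Bool} {g : V → ℝ} (hg : ∀ x, 0 ≤ g x ∧ g x ≤ 1) (x : V) :
    0 ≤ stp G v k β g x ∧ stp G v k β g x ≤ 1 := by
  unfold stp
  have := hg x
  split_ifs <;> first | exact this | norm_num

theorem E_mono (n : ℕ) : ∀ (k : ℕ) {φ ψ : (V → ℝ) → ℝ},
    (∀ g : V → ℝ, (∀ x, 0 ≤ g x ∧ g x ≤ 1) → φ g ≤ ψ g) → E G v n k φ ≤ E G v n k ψ := by
  induction n with
  | zero => intro k φ ψ h; exact h _ fun x => ⟨T_nonneg v k x, (T_lt v k x).le⟩
  | succ n ih =>
    intro k φ ψ h
    rw [E_succ, E_succ]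
    exact av_mono fun β => ih (k + 1) fun g hg => h _ (stp_mem G v hg)

theorem E_congr (n k : ℕ) {φ ψ : (V → ℝ) → ℝ}
    (h : ∀ g : V → ℝ, (∀ x, 0 ≤ g x ∧ g x ≤ 1) → φ g = ψ g) : E G v n k φ = E G v n k ψ :=
  le_antisymm (E_mono G v n k fun g hg => (h g hg).le) (E_mono G v n k fun g hg => (h g hg).ge)

theorem E_const (n : ℕ) : ∀ (k : ℕ) (c : ℝ), E G v n k (fun _ => c) = c := by
  induction n with
  | zero => intro k c; rfl
  | succ n ih =>
    intro k c
    rw [E_succ]
    simp only [ih]
    exact av_const c

theorem E_add (n : ℕ) : ∀ (k : ℕ) (φ ψ : (V → ℝ) → ℝ),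
    E G v n k (fun g => φ g + ψ g) = E G v n k φ + E G v n k ψ := by
  induction n with
  | zero => intro k φ ψ; rfl
  | succ n ih =>
    intro k φ ψ
    rw [E_succ, E_succ, E_succ, ← av_add]
    congr 1
    funext β
    exact ih _ _ _

theorem E_sub (n k : ℕ) (φ ψ : (V → ℝ) → ℝ) :
    E G v n k (fun g => φ g - ψ g) = E G v n k φ - E G v n k ψ := by
  have h := E_add G v n k (fun g => φ g - ψ g) ψ
  simp only [sub_add_cancel] at h
  linarith

theorem E_abs (n k : ℕ) (φ : (V → ℝ) → ℝ) : |E G v n k φ| ≤ E G v n k fun g => |φ g| := by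
  rw [abs_le]
  have h1 := E_mono G v n k (φ := φ) (ψ := fun g => |φ g|) fun g _ => le_abs_self _
  have h2 := E_mono G v n k (φ := fun g => 0 - φ g) (ψ := fun g => |φ g|) fun g _ => by
    rw [zero_sub]; exact neg_le_abs _
  rw [E_sub, E_const] at h2
  constructor <;> linarith

/-- the mean of the cascade -/
theorem E_mean (n : ℕ) : ∀ (k : ℕ) (x : V), E G v n k (fun g => g x) = T v k x := by
  induction n with
  | zero => intro k x; rfl
  | succ n ih =>
    intro k x
    rw [E_succ]
    have hT := T_succ v k x
    by_cases h : T v k x < 1 / 2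
    · rw [if_pos h] at hT
      have h1 : ∀ β : V → Bool, E G v n (k + 1) (fun g => stp G v k β g x) =
          (fun b : Bool => if b then T v (k + 1) x else 0) (β (cp G v k x)) := by
        intro β
        simp only [stp, if_pos h]
        cases β (cp G v k x)
        · simpa using E_const G v n (k + 1) 0
        · simpa using ih (k + 1) x
      simp only [h1]
      rw [av_coin (fun b : Bool => if b then T v (k + 1) x else 0)]
      simp
      linarith
    · rw [if_neg h] at hT
      have h1 : ∀ β : V → Bool, E G v n (k + 1) (fun g => stp G v k β g x) =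
          (fun b : Bool => if b then 1 else T v (k + 1) x) (β (cp G v k x)) := by
        intro β
        simp only [stp, if_neg h]
        cases β (cp G v k x)
        · simpa using ih (k + 1) x
        · simpa using E_const G v n (k + 1) 1
      simp only [h1]
      rw [av_coin (fun b : Bool => if b then 1 else T v (k + 1) x)]
      simp
      linarith

/-- the metric of the cascade -/
noncomputable def D (n k : ℕ) (x y : V) : ℝ := E G v n k fun g => |g x - g y|

theorem D_ge (n k : ℕ) (x y : V) : |T v k x - T v k y| ≤ D G v n k x y := by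
  have h := E_abs G v n k fun g => g x - g y
  rw [E_sub, E_mean, E_mean] at h
  exact h

theorem D_comm (n k : ℕ) (x y : V) : D G v n k x y = D G v n k y x := by
  unfold D
  simp only [abs_sub_comm]

/-- both points in the same component and in the same half of it -/
theorem D_same {n k : ℕ} {x y : V} (hc : cp G v k x = cp G v k y)
    (hh : T v k x < 1 / 2 ↔ T v k y < 1 / 2) :
    D G v (n + 1) k x y = D G v n (k + 1) x y / 2 := by
  unfold D
  rw [E_succ]
  by_cases h : T v k x < 1 / 2
  · have h' := hh.1 h
    have h1 : ∀ β : V → Bool, E G v n (k + 1) (fun g => |stp G v k β g x - stp G v k β g y|) =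
        (fun b : Bool => if b then E G v n (k + 1) (fun g => |g x - g y|) else 0)
          (β (cp G v k x)) := by
      intro β
      simp only [stp, if_pos h, if_pos h', ← hc]
      cases β (cp G v k x)
      · simpa using E_const G v n (k + 1) 0
      · simp
    simp only [h1]
    rw [av_coin (fun b : Bool => if b then E G v n (k + 1) (fun g => |g x - g y|) else 0)]
    simp
  · have h' : ¬ T v k y < 1 / 2 := fun h' => h (hh.2 h')
    have h1 : ∀ β : V → Bool, E G v n (k + 1) (fun g => |stp G v k β g x - stp G v k β g y|) =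
        (fun b : Bool => if b then 0 else E G v n (k + 1) (fun g => |g x - g y|))
          (β (cp G v k x)) := by
      intro β
      simp only [stp, if_neg h, if_neg h', ← hc]
      cases β (cp G v k x)
      · simp
      · simpa using E_const G v n (k + 1) 0
    simp only [h1]
    rw [av_coin (fun b : Bool => if b then 0 else E G v n (k + 1) (fun g => |g x - g y|))]
    simp

/-- both points in the same component, in different halves -/
theorem D_halves {n k : ℕ} {x y : V} (hc : cp G v k x = cp G v k y)
    (hx : T v k x < 1 / 2) (hy : ¬ T v k y < 1 / 2) :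
    D G v (n + 1) k x y = T v k y - T v k x := by
  unfold D
  rw [E_succ]
  have h1 : ∀ β : V → Bool, E G v n (k + 1) (fun g => |stp G v k β g x - stp G v k β g y|) =
      (fun b : Bool => if b then 1 - T v (k + 1) x else T v (k + 1) y) (β (cp G v k x)) := by
    intro β
    simp only [stp, if_pos hx, if_neg hy, ← hc]
    cases β (cp G v k x)
    · simp only [Bool.false_eq_true, if_false]
      rw [← E_mean G v n (k + 1) y]
      refine E_congr G v n (k + 1) fun g hg => ?_
      rw [zero_sub, abs_neg, abs_of_nonneg (hg y).1]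
    · simp only [if_true]
      have := E_sub G v n (k + 1) (fun _ => 1) (fun g => g x)
      rw [E_const, E_mean] at this
      rw [← this]
      refine E_congr G v n (k + 1) fun g hg => ?_
      rw [abs_sub_comm, abs_of_nonneg (by linarith [(hg x).2])]
  simp only [h1]
  rw [av_coin (fun b : Bool => if b then 1 - T v (k + 1) x else T v (k + 1) y)]
  have hTx := T_succ v k x
  have hTy := T_succ v k y
  rw [if_pos hx] at hTx
  rw [if_neg hy] at hTy
  simp
  linarith

/-- edges are not stretched -/
theorem D_edge (n : ℕ) : ∀ (k : ℕ) (x y : V), G.Adj x y →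
    ⌊(2 : ℝ) ^ k * v x⌋ = ⌊(2 : ℝ) ^ k * v y⌋ → D G v n k x y ≤ |T v k x - T v k y| := by
  induction n with
  | zero => intro k x y _ _; exact le_rfl
  | succ n ih =>
    intro k x y hxy hs
    have hc : cp G v k x = cp G v k y :=
      (cp_eq G v).2 (SimpleGraph.Adj.reachable (show (lev G v k).Adj x y from ⟨hxy, hs⟩))
    have hTx := T_succ v k x
    have hTy := T_succ v k y
    by_cases hx : T v k x < 1 / 2 <;> by_cases hy : T v k y < 1 / 2
    · have hh : T v k x < 1 / 2 ↔ T v k y < 1 / 2 := ⟨fun _ => hy, fun _ => hx⟩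
      rw [D_same G v hc hh]
      have := ih (k + 1) x y hxy (slab_up v hs hh)
      rw [if_pos hx] at hTx
      rw [if_pos hy] at hTy
      rw [hTx, hTy, ← mul_sub, abs_mul, abs_two] at this
      linarith
    · rw [D_halves G v hc hx hy]
      rw [abs_sub_comm]
      exact le_abs_self _
    · rw [D_comm, D_halves G v hc.symm hy hx]
      exact le_abs_self _
    · have hh : T v k x < 1 / 2 ↔ T v k y < 1 / 2 :=
        ⟨fun h => absurd h hx, fun h => absurd h hy⟩
      rw [D_same G v hc hh]
      have := ih (k + 1) x y hxy (slab_up v hs hh)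
      rw [if_neg hx] at hTx
      rw [if_neg hy] at hTy
      have e : T v (k + 1) x - T v (k + 1) y = 2 * (T v k x - T v k y) := by
        rw [hTx, hTy]; ring
      rw [e, abs_mul, abs_two] at this
      linarith

/-- distance to the boundary of the slab of level `k`, in units of its height -/
noncomputable def bd (k : ℕ) (x : V) : ℝ := min (T v k x) (1 - T v k x)

omit [Fintype V] [DecidableEq V] in
theorem bd_succ (k : ℕ) (x : V) : bd v (k + 1) x ≤ 2 * bd v k x := by
  unfold bd
  have h0 := T_nonneg v k x
  have h1 := T_lt v k x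
  have hT := T_succ v k x
  split_ifs at hT with h
  · rw [hT, min_eq_left (a := T v k x) (by linarith)]
    exact min_le_left _ _
  · rw [hT, min_eq_right (a := T v k x) (by linarith)]
    refine (min_le_right _ _).trans (by linarith)

omit [Fintype V] [DecidableEq V] in
theorem bd_add (k j : ℕ) (x : V) : bd v (k + j) x ≤ 2 ^ j * bd v k x := by
  induction j with
  | zero => simp
  | succ j ih =>
    have := bd_succ v (k + j) x
    rw [pow_succ]
    calc bd v (k + (j + 1)) x ≤ 2 * bd v (k + j) x := this
      _ ≤ 2 * (2 ^ j * bd v k x) := by linarith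
      _ = _ := by ring

/-- different components are separated -/
theorem D_sep {n k : ℕ} {x y : V} (hc : cp G v k x ≠ cp G v k y) :
    bd v k x ≤ D G v (n + 1) k x y := by
  unfold D
  rw [E_succ]
  set A : V → Bool → ℝ := fun z b => if T v k z < 1 / 2 then (if b then T v (k + 1) z else 0)
    else (if b then 1 else T v (k + 1) z) with hA
  have key : ∀ z (β : V → Bool), E G v n (k + 1) (fun g => stp G v k β g z) =
      A z (β (cp G v k z)) := by
    intro z β
    simp only [hA, stp]
    by_cases h : T v k z < 1 / 2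
    · simp only [if_pos h]
      cases β (cp G v k z)
      · simpa using E_const G v n (k + 1) 0
      · simpa using E_mean G v n (k + 1) z
    · simp only [if_neg h]
      cases β (cp G v k z)
      · simpa using E_mean G v n (k + 1) z
      · simpa using E_const G v n (k + 1) 1
  have h1 : av (fun β : V → Bool => |A x (β (cp G v k x)) - A y (β (cp G v k y))|) ≤
      av fun β : V → Bool => E G v n (k + 1) fun g => |stp G v k β g x - stp G v k β g y| := by
    refine av_mono fun β => ?_
    have := E_abs G v n (k + 1) fun g => stp G v k β g x - stp G v k β g y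
    rw [E_sub, key, key] at this
    exact this
  have h2 := av_two (A x) (A y) (s := cp G v k x) (s' := cp G v k y) hc.symm
  refine le_trans (le_trans ?_ h2) h1
  have hT := T_succ v k x
  have h0 := T_nonneg v (k + 1) x
  have h1 := T_lt v (k + 1) x
  unfold bd
  by_cases h : T v k x < 1 / 2
  · simp only [hA, if_pos h, if_true, Bool.false_eq_true, if_false]
    rw [if_pos h] at hT
    rw [sub_zero, abs_of_nonneg h0]
    refine (min_le_left _ _).trans ?_
    linarith
  · simp only [hA, if_neg h, if_true, Bool.false_eq_true, if_false]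
    rw [if_neg h] at hT
    rw [abs_of_nonneg (by linarith)]
    refine (min_le_right _ _).trans ?_
    linarith

/-- the lower bound at a slab of level `k + j` that contains both points in different components -/
theorem D_lower (j : ℕ) : ∀ (n k : ℕ) {x y : V}, j < n →
    ⌊(2 : ℝ) ^ (k + j) * v x⌋ = ⌊(2 : ℝ) ^ (k + j) * v y⌋ →
    cp G v (k + j) x ≠ cp G v (k + j) y → bd v (k + j) x ≤ 2 ^ j * D G v n k x y := by
  induction j with
  | zero =>
    intro n k x y hn _ hc
    obtain ⟨n, rfl⟩ : ∃ m, n = m + 1 := ⟨n - 1, by omega⟩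
    simpa using D_sep G v (n := n) hc
  | succ j ih =>
    intro n k x y hn hs hc
    obtain ⟨n, rfl⟩ : ∃ m, n = m + 1 := ⟨n - 1, by omega⟩
    have e : k + (j + 1) = k + 1 + j := by ring
    by_cases hk : cp G v k x = cp G v k y
    · have hs' : ⌊(2 : ℝ) ^ (k + 1) * v x⌋ = ⌊(2 : ℝ) ^ (k + 1) * v y⌋ := by
        rw [e] at hs
        exact slab_le v hs
      rw [D_same G v hk (slab_down v hs').2]
      rw [e] at hs hc ⊢
      have := ih n (k + 1) (by omega) hs hc
      rw [pow_succ]
      linarith
    · refine (bd_add v k (j + 1) x).trans ?_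
      exact mul_le_mul_of_nonneg_left (D_sep G v hk) (by positivity)

end Vale.Agent.P235.Osc
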