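import Vale.Agent.P235.H105.Hop
import Vale.Agent.P235.H536.MergeFace

namespace Vale.Agent.P235.H536

/-- (MERGE) holds -/
theorem mergeStmt : MergeStmt := by
  intro V _ G σ fst cyc S hS hne hz X hX hdis hSX
  obtain ⟨f, hf⟩ := merge_face fst cyc hS hz hX hdis
    (fun s hs x hx hadj => by
      by_contra h
      exact hx (hSX s hs x hadj h)) hne
  refine ⟨f, fun d hd h => hf d hd ?_⟩
  obtain ⟨e, h1, h2⟩ := h
  exact ⟨e, h1, fun h3 => Set.disjoint_left.1 hdis h3 h2⟩

end Vale.Agent.P235.H536
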