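import Vale.Agent.P235.H206.SurfFinal
import Vale.Agent.P235.H536.MergeStmt

/-!
# Graphs of Euler genus `g` within `k` face hops of one face
-/

namespace Vale.Agent.P235.H536

open SimpleGraph

attribute [local instance] finite_dart

theorem conn_of_walks {V : Type} {G : SimpleGraph V} {X : Set V} {r : V} (hr : r ∈ X)
    (h : ∀ x ∈ X, ∃ p : G.Walk x r, ∀ w ∈ p.support, w ∈ X) : (G.induce X).Connected := by
  rw [SimpleGraph.connected_iff]
  refine ⟨?_, ⟨⟨r, hr⟩⟩⟩
  have h1 : ∀ x : X, (G.induce X).Reachable x ⟨r, hr⟩ := by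
    rintro ⟨x, hx⟩
    obtain ⟨p, hp⟩ := h x hx
    exact ⟨p.induce X hp⟩
  exact fun x y => (h1 x).trans (h1 y).symm

theorem comb : ∃ A : ℝ, ∀ (g k : ℕ) (V : Type) [Finite V] (G : SimpleGraph V), G.Connected →
    ∀ σ, SurfMap g G σ → ∀ d, (∀ v, v ∈ hop σ d k) →
      DistortionLE G (A * (k + Real.log (g + 2))) := by
  refine ⟨10 ^ 14, fun g k V _ G hc σ hσ d h => ?_⟩
  have hk0 : (0 : ℝ) ≤ k := Nat.cast_nonneg k
  refine (genus_gen hc hσ d.fst (C := 3328000 * (1 + ((k + 1 : ℕ) : ℝ)))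
    (by push_cast; linarith) fun X hr hX v hv hz => ?_).mono ?_
  · have hK := comp_connected (G := G) hv
    by_cases hne : Nonempty (G.induce (compSet G X v)).Dart
    swap
    · have := subsingleton_of_no_dart hK hne
      exact distortion_subsingleton _ hK.nonempty
    have hcl : ∀ x ∈ compSet G X v, ∀ b, G.Adj x b → b ∉ X → b ∈ compSet G X v :=
      fun x hx b hb hb' => comp_closed hx hb hb'
    obtain ⟨f, hf⟩ := mergeStmt V G σ hσ.fst hσ.cyc _ hK hne hz X (conn_of_walks hr hX)
      (Set.disjoint_left.2 fun x hx => ReachOff.right hx) hcl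
    have hpl : PlaneMap (G.induce (compSet G X v)) (indRot σ _) := by
      refine SurfMap.plane hK ⟨indRot_fst hσ.fst, fun a b hab => ?_, ?_⟩
      · exact retPerm_sameCycle σ upDart_injective (hσ.cyc _ _ (congrArg Subtype.val hab))
      · rw [add_zero]
        exact induced_euler hK hne hz
    exact planar_distortion (k + 1) le_rfl _ _ hK (peel_hop mergeStmt 1 k _ _ hK _ hpl f
      fun x => hop_ind hσ.fst hcl hf ⟨d, Equiv.Perm.SameCycle.refl _ _, hr⟩ k x.1 x.2 (h x.1))
  · have hL : (0.69 : ℝ) < Real.log ((g : ℝ) + 2) := by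
      have h1 := Real.log_two_gt_d9
      have h2 : Real.log 2 ≤ Real.log ((g : ℝ) + 2) :=
        Real.log_le_log (by norm_num) (by have : (0 : ℝ) ≤ g := Nat.cast_nonneg g; linarith)
      linarith
    push_cast
    nlinarith

end Vale.Agent.P235.H536
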