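import Vale.Agent.P235.H536.PlaneDefs
import Vale.Agent.P235.H873.FaceDefs

/-!
# The boundary of a face of a plane rotation system is crossless
-/

namespace Vale.Agent.P235.H536

open Finset

section

variable {V : Type} {G : SimpleGraph V} {σ : Equiv.Perm G.Dart}

theorem zmod_cancel (a b : ZMod 2) : a + (a + b) = b := by
  rw [← add_assoc, CharTwo.add_self_eq_zero, zero_add]

theorem faceNext_apply (d : G.Dart) : faceNext σ d = σ d.symm := rfl

theorem faceNext_fst (hσ : PlaneMap G σ) (d : G.Dart) : (faceNext σ d).fst = d.snd := by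
  rw [faceNext_apply, hσ.fst]
  rfl

variable [Fintype G.Dart] [DecidableEq V] [DecidableEq G.Dart]

/-- number of times a list of darts passes through the edge of `d`, mod `2` -/
def cnt (L : List G.Dart) (d : G.Dart) : ZMod 2 := (L.map fun e => if e = d then (1 : ZMod 2) else 0).sum

omit [Fintype G.Dart] [DecidableEq V] in
theorem cnt_nil (d : G.Dart) : cnt ([] : List G.Dart) d = 0 := rfl

omit [Fintype G.Dart] [DecidableEq V] in
theorem cnt_cons (e : G.Dart) (L : List G.Dart) (d : G.Dart) :
    cnt (e :: L) d = (if e = d then 1 else 0) + cnt L d := by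
  simp [cnt]

omit [Fintype G.Dart] [DecidableEq V] in
theorem cnt_zero {L : List G.Dart} {d : G.Dart} (h : d ∉ L) : cnt L d = 0 := by
  induction L with
  | nil => rfl
  | cons e L ih =>
    rw [List.mem_cons, not_or] at h
    rw [cnt_cons, if_neg (Ne.symm h.1), ih h.2, add_zero]

/-- the boundary of a list of darts -/
theorem sum_cnt (L : List G.Dart) (v : V) :
    ∑ d : G.Dart, (if d.fst = v then cnt L d + cnt L d.symm else 0) =
      (L.map fun e => (if e.fst = v then (1 : ZMod 2) else 0) + if e.snd = v then 1 else 0).sum := by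
  induction L with
  | nil => simp [cnt_nil]
  | cons e L ih =>
    rw [List.map_cons, List.sum_cons, ← ih]
    have h1 : ∀ d : G.Dart, (if d.fst = v then cnt (e :: L) d + cnt (e :: L) d.symm else 0) =
        ((if e = d then (if e.fst = v then (1 : ZMod 2) else 0) else 0) +
          (if e.symm = d then (if e.snd = v then (1 : ZMod 2) else 0) else 0)) +
        (if d.fst = v then cnt L d + cnt L d.symm else 0) := by
      intro d
      rw [cnt_cons, cnt_cons]
      have h2 : (e = d.symm) ↔ (e.symm = d) := by
        constructor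
        · rintro rfl; simp
        · rintro rfl; simp
      by_cases hd : d.fst = v
      · rw [if_pos hd, if_pos hd]
        by_cases h3 : e = d
        · subst h3
          rw [if_pos rfl, if_pos rfl, if_pos hd]
          by_cases h4 : e = e.symm
          · exact absurd (congrArg (fun f : G.Dart => f.fst) h4) e.adj.ne
          · rw [if_neg h4, if_neg (fun h => h4 h.symm)]
            ring
        · rw [if_neg h3, if_neg h3]
          by_cases h4 : e.symm = d
          · rw [if_pos (h2.2 h4), if_pos h4]
            have h5 : e.snd = v := by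
              rw [← hd, ← h4]; rfl
            rw [if_pos h5]
            ring
          · rw [if_neg (fun h => h4 (h2.1 h)), if_neg h4]
            ring
      · rw [if_neg hd, if_neg hd]
        have h3 : (if e = d then (if e.fst = v then (1 : ZMod 2) else 0) else 0) = 0 := by
          split_ifs with h h'
          · exact absurd (h ▸ h') hd
          · rfl
          · rfl
        have h4 : (if e.symm = d then (if e.snd = v then (1 : ZMod 2) else 0) else 0) = 0 := by
          split_ifs with h h'
          · exact absurd (by rw [← h]; exact h') hd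
          · rfl
          · rfl
        rw [h3, h4]
        ring
    rw [Finset.sum_congr rfl fun d _ => h1 d, Finset.sum_add_distrib, Finset.sum_add_distrib,
      Finset.sum_ite_eq, Finset.sum_ite_eq, if_pos (Finset.mem_univ _), if_pos (Finset.mem_univ _)]

omit [Fintype G.Dart] [DecidableEq G.Dart] in
theorem walk_boundary {a c : V} (p : G.Walk a c) (v : V) :
    (p.darts.map fun e => (if e.fst = v then (1 : ZMod 2) else 0) + if e.snd = v then 1 else 0).sum =
      (if a = v then 1 else 0) + if c = v then 1 else 0 := by
  induction p with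
  | nil =>
    simp only [SimpleGraph.Walk.darts_nil, List.map_nil, List.sum_nil]
    exact (CharTwo.add_self_eq_zero _).symm
  | @cons a b c h p ih =>
    rw [SimpleGraph.Walk.darts_cons, List.map_cons, List.sum_cons, ih]
    show (if a = v then (1 : ZMod 2) else 0) + (if b = v then 1 else 0) +
      ((if b = v then 1 else 0) + if c = v then 1 else 0) = _
    rw [add_assoc, zmod_cancel]

omit [Fintype G.Dart] [DecidableEq G.Dart] in
theorem seg_boundary {D : ℕ → G.Dart} (hD : ∀ i, (D i).snd = (D (i + 1)).fst) (a m : ℕ) (v : V) :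
    (((List.range' a m).map D).map
      fun e => (if e.fst = v then (1 : ZMod 2) else 0) + if e.snd = v then 1 else 0).sum =
      (if (D a).fst = v then 1 else 0) + if (D (a + m)).fst = v then 1 else 0 := by
  induction m generalizing a with
  | zero =>
    simp only [List.range'_zero, List.map_nil, List.sum_nil, add_zero]
    exact (CharTwo.add_self_eq_zero _).symm
  | succ m ih =>
    rw [List.range'_succ, List.map_cons, List.map_cons, List.sum_cons, ih, hD a]
    have e : a + 1 + m = a + (m + 1) := by ring
    rw [e, add_assoc, zmod_cancel]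

omit [Fintype G.Dart] [DecidableEq V] in
/-- shifting a segment -/
theorem cnt_shift {φ : Equiv.Perm G.Dart} {D : ℕ → G.Dart} (hD : ∀ i, D (i + 1) = φ (D i))
    (a m : ℕ) (d : G.Dart) :
    cnt ((List.range' a m).map D) (φ d) = cnt ((List.range' a m).map D) d +
      ((if D a = φ d then 1 else 0) + if D (a + m) = φ d then 1 else 0) := by
  induction m generalizing a with
  | zero =>
    simp only [List.range'_zero, List.map_nil, cnt_nil, add_zero, zero_add]
    exact (CharTwo.add_self_eq_zero _).symm
  | succ m ih =>
    rw [List.range'_succ, List.map_cons, cnt_cons, cnt_cons, ih]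
    have e : a + 1 + m = a + (m + 1) := by ring
    have h1 : (if D (a + 1) = φ d then (1 : ZMod 2) else 0) = if D a = d then 1 else 0 := by
      rw [hD a]
      simp only [EmbeddingLike.apply_eq_iff_eq]
    rw [e, h1]
    ring

end

/-- the key lemma -/
theorem crossless_of_cycle {V : Type} [Finite V] {G : SimpleGraph V} {σ : Equiv.Perm G.Dart}
    (hσ : PlaneMap G σ)
    (hcyc : ∀ (_ : Fintype G.Dart) (_ : DecidableEq V) (z : G.Dart → ZMod 2),
      (∀ d, z d.symm = z d) →
      (∀ v, ∑ d : G.Dart, (if d.fst = v then z d else 0) = 0) →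
      ∃ u : G.Dart → ZMod 2, (∀ d, u (faceNext σ d) = u d) ∧ ∀ d, z d = u d + u d.symm)
    {D : ℕ → G.Dart} (hD : ∀ i, D (i + 1) = faceNext σ (D i)) {a b c d : ℕ} (hab : a < b)
    (hbc : b < c) (hinj : ∀ i, a ≤ i → i < c → (D i = D b → i = b) ∧ D i ≠ D d)
    (hbd : ∃ m, D d = ((faceNext σ) ^ m) (D b))
    (p : G.Walk (D a).fst (D c).fst) (q : G.Walk (D b).fst (D d).fst) :
    ∃ z, z ∈ p.support ∧ z ∈ q.support := by
  classical
  have hfin : Finite G.Dart := Finite.of_injective (fun d : G.Dart => d.toProd)
    (fun _ _ h => SimpleGraph.Dart.toProd_injective h)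
  have : Fintype G.Dart := Fintype.ofFinite _
  by_contra hno
  push Not at hno
  set φ := faceNext σ with hφ
  have hsnd : ∀ i, (D i).snd = (D (i + 1)).fst := fun i => by
    rw [hD i, hφ, faceNext_fst hσ]
  obtain ⟨m, rfl⟩ : ∃ m, c = a + m := ⟨c - a, by omega⟩
  let L : List G.Dart := (List.range' a m).map D
  let P : G.Dart → ZMod 2 := fun e => cnt p.darts e + cnt p.darts e.symm
  let R : G.Dart → ZMod 2 := fun e => cnt L e
  obtain ⟨u, hu1, hu2⟩ := hcyc inferInstance inferInstance (fun e => P e + (R e + R e.symm))
    (fun e => by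
      show (cnt p.darts e.symm + cnt p.darts e.symm.symm) + (cnt L e.symm + cnt L e.symm.symm) =
        (cnt p.darts e + cnt p.darts e.symm) + (cnt L e + cnt L e.symm)
      rw [SimpleGraph.Dart.symm_symm]
      ring) (fun v => by
      have h1 : ∀ e : G.Dart, (if e.fst = v then P e + (R e + R e.symm) else 0) =
          (if e.fst = v then cnt p.darts e + cnt p.darts e.symm else 0) +
            (if e.fst = v then cnt L e + cnt L e.symm else 0) := by
        intro e
        split_ifs
        · rfl
        · rw [add_zero]
      rw [Finset.sum_congr rfl fun e _ => h1 e, Finset.sum_add_distrib, sum_cnt, sum_cnt,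
        walk_boundary, seg_boundary hsnd]
      exact CharTwo.add_self_eq_zero _)
  let s : G.Dart → ZMod 2 := fun e => u e + R e
  have hP0 : ∀ e : G.Dart, e.fst ∉ p.support → P e = 0 := by
    intro e he
    show cnt p.darts e + cnt p.darts e.symm = 0
    rw [cnt_zero, cnt_zero, add_zero]
    · intro h
      exact he (p.dart_snd_mem_support_of_mem_darts h)
    · intro h
      exact he (p.dart_fst_mem_support_of_mem_darts h)
  have hs1 : ∀ e : G.Dart, e.fst ∉ p.support → s e.symm = s e := by
    intro e he
    have h1 := hu2 e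
    have h2 := hP0 e he
    have h3 : P e + (R e + R e.symm) = u e + u e.symm := h1
    rw [h2, zero_add] at h3
    show u e.symm + R e.symm = u e + R e
    have h4 : u e + (u e + u e.symm) = u e.symm := zmod_cancel _ _
    have h5 : R e + (R e + R e.symm) = R e.symm := zmod_cancel _ _
    have h6 : R e.symm + (R e + R e.symm) = R e := by
      rw [add_comm (R e) (R e.symm)]; exact zmod_cancel _ _
    rw [← h4, ← h3, add_assoc, add_comm (R e + R e.symm) (R e.symm), h6]
  have hs2 : ∀ e : G.Dart, (φ e).fst ∉ p.support → s (φ e) = s e := by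
    intro e he
    show u (φ e) + cnt L (φ e) = u e + cnt L e
    have h1 : cnt L (φ e) = cnt L e +
        ((if D a = φ e then 1 else 0) + if D (a + m) = φ e then 1 else 0) :=
      cnt_shift hD a m e
    have h2 : D a ≠ φ e := fun h => he (by rw [← h]; exact p.start_mem_support)
    have h3 : D (a + m) ≠ φ e := fun h => he (by rw [← h]; exact p.end_mem_support)
    rw [h1, if_neg h2, if_neg h3, hφ, hu1, add_zero, add_zero]
  have hs3 : ∀ e : G.Dart, e.fst ∉ p.support → s (σ e) = s e := by
    intro e he
    have h1 : φ e.symm = σ e := by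
      rw [hφ, faceNext_apply, SimpleGraph.Dart.symm_symm]
    rw [← h1, hs2, hs1 e he]
    rw [h1, hσ.fst]
    exact he
  have hs4 : ∀ e : G.Dart, e.fst ∉ p.support → ∀ k : ℕ, s ((σ ^ k) e) = s e ∧
      ((σ ^ k) e).fst = e.fst := by
    intro e he k
    induction k with
    | zero => exact ⟨rfl, rfl⟩
    | succ k ih =>
      rw [pow_succ', Equiv.Perm.mul_apply]
      refine ⟨?_, by rw [hσ.fst, ih.2]⟩
      rw [hs3 _ (by rw [ih.2]; exact he), ih.1]
  have hs5 : ∀ e e' : G.Dart, e.fst ∉ p.support → e.fst = e'.fst → s e = s e' := by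
    intro e e' he h
    obtain ⟨k, -, -, hk⟩ := (hσ.cyc e e' h).exists_pow_eq''
    rw [← hk, (hs4 e he k).1]
  have hs6 : ∀ (v w : V) (q : G.Walk v w), (∀ z ∈ q.support, z ∉ p.support) →
      ∀ e e' : G.Dart, e.fst = v → e'.fst = w → s e = s e' := by
    intro v w q
    induction q with
    | nil =>
      intro hq e e' he he'
      exact hs5 e e' (by rw [he]; exact hq _ (by simp)) (he.trans he'.symm)
    | @cons v v' w h q ih =>
      intro hq e e' he he'
      let f : G.Dart := ⟨(v, v'), h⟩
      have hv : v ∉ p.support := hq v (by simp)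
      have h1 : s e = s f := hs5 e f (by rw [he]; exact hv) he
      have h2 : s f.symm = s f := hs1 f hv
      rw [h1, ← h2]
      exact ih (fun z hz => hq z (by
        rw [SimpleGraph.Walk.support_cons]
        exact List.mem_cons_of_mem _ hz)) f.symm e' rfl he'
  have hsb : s (D b) = s (D d) := hs6 _ _ q (fun z hz hz' => hno z hz' hz) _ _ rfl rfl
  have hub : u (D d) = u (D b) := by
    obtain ⟨k, hk⟩ := hbd
    rw [hk]
    have : ∀ k : ℕ, u ((φ ^ k) (D b)) = u (D b) := by
      intro k
      induction k with
      | zero => rfl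
      | succ k ih => rw [pow_succ', Equiv.Perm.mul_apply, hφ, hu1, ← hφ, ih]
    exact this k
  have hRd : R (D d) = 0 := by
    refine cnt_zero fun h => ?_
    obtain ⟨i, hi, hi'⟩ := List.mem_map.1 h
    rw [List.mem_range'_1] at hi
    exact (hinj i hi.1 hi.2).2 hi'
  have hRb : R (D b) = 1 := by
    have key : ∀ (m a : ℕ), (∀ i, a ≤ i → i < a + m → D i = D b → i = b) →
        cnt ((List.range' a m).map D) (D b) = if a ≤ b ∧ b < a + m then 1 else 0 := by
      intro m
      induction m with
      | zero =>
        intro a _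
        rw [if_neg (by omega)]
        rfl
      | succ m ih =>
        intro a h
        rw [List.range'_succ, List.map_cons, cnt_cons, ih (a + 1) fun i h1 h2 h3 =>
          h i (by omega) (by omega) h3]
        by_cases hb : D a = D b
        · have e : a = b := h a le_rfl (by omega) hb
          rw [if_pos hb, if_neg (by omega), if_pos (by omega), add_zero]
        · rw [if_neg hb, zero_add]
          have hne : a ≠ b := fun e => hb (by rw [e])
          by_cases h1 : a ≤ b ∧ b < a + (m + 1)
          · rw [if_pos h1, if_pos (by omega)]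
          · rw [if_neg h1, if_neg (by omega)]
    have := key m a fun i h1 h2 h3 => (hinj i h1 h2).1 h3
    rw [if_pos (by omega)] at this
    exact this
  have h1 : u (D b) + R (D b) = u (D d) + R (D d) := hsb
  rw [hub, hRd, hRb] at h1
  have h2 : (1 : ZMod 2) = 0 := add_left_cancel h1
  exact one_ne_zero h2

/-- **The boundary of a face of a plane rotation system is crossless.** -/
theorem crossless_face_of {V : Type} [Finite V] {G : SimpleGraph V} {σ : Equiv.Perm G.Dart}
    (hσ : PlaneMap G σ)
    (hcyc : ∀ (_ : Fintype G.Dart) (_ : DecidableEq V) (z : G.Dart → ZMod 2),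
      (∀ d, z d.symm = z d) →
      (∀ v, ∑ d : G.Dart, (if d.fst = v then z d else 0) = 0) →
      ∃ u : G.Dart → ZMod 2, (∀ d, u (faceNext σ d) = u d) ∧ ∀ d, z d = u d + u d.symm)
    (d0 : G.Dart) :
    ∃ (n : ℕ) (x : Fin n → V), 0 < n ∧ Crossless G x ∧ Set.range x = onFace σ d0 := by
  classical
  have hfin : Finite G.Dart := Finite.of_injective (fun d : G.Dart => d.toProd)
    (fun _ _ h => SimpleGraph.Dart.toProd_injective h)
  have hper : d0 ∈ Function.periodicPts (faceNext σ) :=
    (faceNext σ).injective.mem_periodicPts d0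
  have hpos := Function.minimalPeriod_pos_of_mem_periodicPts hper
  have hinj := Function.iterate_injOn_Iio_minimalPeriod (f := faceNext σ) (x := d0)
  have hstep : ∀ i, (faceNext σ)^[i + 1] d0 = faceNext σ ((faceNext σ)^[i] d0) := fun i =>
    Function.iterate_succ_apply' _ _ _
  refine ⟨Function.minimalPeriod (faceNext σ) d0, fun i => ((faceNext σ)^[(i : ℕ)] d0).fst, hpos,
    ?_, ?_⟩
  · intro a b c d hab hbc hcd p q
    refine crossless_of_cycle hσ hcyc (D := fun i => (faceNext σ)^[i] d0) hstep (a := a) (b := b)
      (c := c) (d := d) hab hbc ?_ ?_ p q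
    · intro i _ h2
      have hi : i ∈ Set.Iio (Function.minimalPeriod (faceNext σ) d0) :=
        lt_trans h2 c.2
      refine ⟨fun h => hinj hi (Set.mem_Iio.2 b.2) h, fun h => ?_⟩
      have := hinj hi (Set.mem_Iio.2 d.2) h
      have h3 : (c : ℕ) < d := hcd
      omega
    · refine ⟨(d : ℕ) - b, ?_⟩
      have h1 : (d : ℕ) = ((d : ℕ) - b) + b := by
        have : (b : ℕ) < c := hbc
        have : (c : ℕ) < d := hcd
        omega
      show (faceNext σ)^[(d : ℕ)] d0 = _
      conv_lhs => rw [h1]
      rw [Function.iterate_add_apply, Equiv.Perm.iterate_eq_pow]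
  · ext v
    constructor
    · rintro ⟨i, rfl⟩
      refine ⟨(faceNext σ)^[(i : ℕ)] d0, ⟨(i : ℕ), ?_⟩, rfl⟩
      rw [zpow_natCast, Equiv.Perm.iterate_eq_pow]
    · rintro ⟨d', hd', rfl⟩
      obtain ⟨i, -, -, hi⟩ := hd'.exists_pow_eq''
      refine ⟨⟨i % Function.minimalPeriod (faceNext σ) d0, Nat.mod_lt _ hpos⟩, ?_⟩
      show ((faceNext σ)^[i % Function.minimalPeriod (faceNext σ) d0] d0).fst = d'.fst
      rw [Function.iterate_mod_minimalPeriod_eq, Equiv.Perm.iterate_eq_pow, hi]

end Vale.Agent.P235.H536
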