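import Vale.Agent.P235.H105.PlaneFinal

namespace Vale.Agent.P235

/-- **The vertices on the boundary of a face of a plane map form a crossless list.** -/
theorem crossless_face (V : Type) [Finite V] (G : SimpleGraph V) (hc : G.Connected)
    (σ : Equiv.Perm G.Dart) (hσ : PlaneMap G σ) (d : G.Dart) :
    ∃ (n : ℕ) (x : Fin n → V), 0 < n ∧ Crossless G x ∧ Set.range x = onFace σ d :=
  H536.crossless_face_of hσ (cycStmt V G σ hc hσ) d

end Vale.Agent.P235
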