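import Vale.Agent.P235.H536.Comb

/-!
# Graphs of Euler genus `g` within `k` face hops of `m` faces
-/

namespace Vale.Agent.P235.H536

open SimpleGraph H206

attribute [local instance] finite_dart

/-- one round which cuts a map of Euler genus `g` into plane maps, with a given root `r` and a
given finite set `M` in the cut -/
theorem genus_step_set {V : Type} {G : SimpleGraph V} {ℓ : Sym2 V → ℝ} [Finite V]
    (hc : G.Connected) (hℓ : ∀ e ∈ G.edgeSet, 0 < ℓ e) {H : V → ℝ} (hH : ∀ v, 0 < H v)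
    (hHl : ∀ u v, G.Adj u v → |H u - H v| ≤ ℓ s(u, v)) {g : ℕ} {σ : Equiv.Perm G.Dart}
    (hσ : SurfMap g G σ) (r : V) (M : Finset V) {K : ℝ} (hK : 0 ≤ K)
    (ih : ∀ X : Set V, r ∈ X → (∀ x ∈ M, x ∈ X) →
      (∀ x ∈ X, ∃ p : G.Walk x r, ∀ w ∈ p.support, w ∈ X) → ∀ v ∉ X,
      (∀ (_ : Fintype G.Dart) (_ : DecidableEq V) (z : G.Dart → ZMod 2),
        (∀ d : G.Dart, z d.symm = z d) → (∀ d : G.Dart, z d ≠ 0 → d.fst ∈ compSet G X v) →
        (∀ v, ∑ d : G.Dart, (if d.fst = v then z d else 0) = 0) →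
        ∃ u : G.Dart → ZMod 2, (∀ d, u (faceNext σ d) = u d) ∧ ∀ d, z d = u d + u d.symm) →
      ∀ H' : compSet G X v → ℝ, (∀ v, 0 < H' v) →
      (∀ a b, (G.induce (compSet G X v)).Adj a b → |H' a - H' b| ≤ ℓ s(a.1, b.1)) →
      Pointed (G.induce (compSet G X v)) (fun e => ℓ (e.map Subtype.val)) H' K) :
    Pointed G ℓ H (K + 100 * ((Nat.log 2 (2 * g + M.card + 1) + 1 : ℕ) : ℝ)) := by
  classical
  have hfV := Fintype.ofFinite V
  have hd := pathDist_isMet hc hℓ
  choose p hp using fun x => exists_geodesic hc hℓ r x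
  obtain ⟨W, hW, hcut⟩ := exists_cut hc hσ p
  let W' : Finset V := insert r (W ∪ M)
  have hW' : W'.card ≤ 2 * g + M.card + 1 := (Finset.card_insert_le _ _).trans (by
    have := Finset.card_union_le W M
    omega)
  have hpos : 0 < W'.card := Finset.card_pos.2 ⟨r, Finset.mem_insert_self _ _⟩
  let e : Fin W'.card ≃ W' := W'.equivFin.symm
  let L : Fin W'.card → Set V := fun i => {x | x ∈ (p (e i).1).support}
  have hcover' : ∀ v ∈ W', ∀ x ∈ (p v).support, x ∈ ⋃ i, L i := by
    intro v hv x hx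
    refine Set.mem_iUnion.2 ⟨e.symm ⟨v, hv⟩, ?_⟩
    show x ∈ (p (e (e.symm _)).1).support
    rw [Equiv.apply_symm_apply]
    exact hx
  have hcover : ∀ v ∈ W, ∀ x ∈ (p v).support, x ∈ ⋃ i, L i := fun v hv =>
    hcover' v (Finset.mem_insert_of_mem (Finset.mem_union_left _ hv))
  refine pointed_step_lanes (fun {V} _ {d} hsym hnn {I} _ _ D h1 h2 =>
      H105.lanes_fam hsym hnn D h1 h2) hc hℓ hH hHl hpos hW' (L := L)
    (fun i => ⟨r, (p (e i).1).start_mem_support⟩) (u := fun x => pathDist G ℓ r x) ?_ ?_ hK ?_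
  · intro a b
    have t1 := hd.tri r a b
    have t2 := hd.tri r b a
    rw [hd.symm b a] at t2
    rw [abs_le]; constructor <;> linarith
  · intro i a ha b hb
    exact geodesic_line hc hℓ (p (e i).1) (hp _) ha hb
  · intro v hv H' hH' hHl'
    refine ih _ (Set.mem_iUnion.2 ⟨⟨0, hpos⟩, (p _).start_mem_support⟩) (fun x hx =>
      hcover' x (Finset.mem_insert_of_mem (Finset.mem_union_right _ hx)) x
        (p x).end_mem_support) ?_ v hv ?_ H' hH' hHl'
    · intro x hx
      obtain ⟨i, hi⟩ := Set.mem_iUnion.1 hx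
      refine ⟨((p (e i).1).takeUntil x hi).reverse, fun w hw => Set.mem_iUnion.2 ⟨i, ?_⟩⟩
      rw [SimpleGraph.Walk.support_reverse, List.mem_reverse] at hw
      exact (p (e i).1).support_takeUntil_subset_support hi hw
    intro _ _ z hz1 hz2 hz3
    let z' : G.edgeSet → ZMod 2 := fun e => z (rep e)
    have hz' : ∀ d, z' (eOf d) = z d := by
      intro d
      rcases eOf_eq (eOf_rep (eOf d)) with h1 | h1
      · show z (rep (eOf d)) = _
        rw [h1]
      · show z (rep (eOf d)) = _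
        rw [h1, hz1]
    obtain ⟨s, hs⟩ := hcut z' (by
      funext x
      have h3 := hz3 x
      rw [← Finset.sum_filter] at h3
      rw [Pi.zero_apply, ← h3]
      exact Finset.sum_congr (by ext d; simp) (fun d _ => hz' d)) (by
      intro d hd w hw hmem
      rw [hz'] at hd
      exact (ReachOff.right (hz2 d hd)) (hcover w hw _ hmem))
    refine ⟨fun d => s ⟦d⟧, fun d => ?_, fun d => ?_⟩
    · show s ⟦σ d.symm⟧ = s ⟦d⟧
      rw [face_eq]
    · rw [← hz', hs, cb_apply]

theorem set_const {C : ℝ} (hC : 1 ≤ C) (g m : ℕ) :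
    16000 * (96 * C + 112 + 100 * ((Nat.log 2 (2 * g + m + 1) + 1 : ℕ) : ℝ)) ≤
      10000000 * (C + Real.log (g + m + 2)) := by
  have h1 := log_add_two (2 * g + m + 1)
  have h2 : Real.log (((2 * g + m + 1 : ℕ) : ℝ) + 2) ≤ 2 * Real.log (g + m + 2) := by
    have hg : (0 : ℝ) ≤ g := Nat.cast_nonneg g
    have hm : (0 : ℝ) ≤ m := Nat.cast_nonneg m
    rw [← Real.log_rpow (by linarith)]
    apply Real.log_le_log (by positivity)
    push_cast
    norm_num
    nlinarith [mul_nonneg hg hm]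
  have h3 : 0 ≤ Real.log ((g : ℝ) + m + 2) := Real.log_nonneg (by
    have hg : (0 : ℝ) ≤ g := Nat.cast_nonneg g
    have hm : (0 : ℝ) ≤ m := Nat.cast_nonneg m
    linarith)
  linarith

/-- **The additive bound for the genus**, with a given root and a given set in the cut -/
theorem genus_gen_set {g : ℕ} {V : Type} [Finite V] {G : SimpleGraph V} (hc : G.Connected)
    {σ : Equiv.Perm G.Dart} (hσ : SurfMap g G σ) (r : V) (M : Finset V) {C : ℝ} (hC : 1 ≤ C)
    (h : ∀ X : Set V, r ∈ X → (∀ x ∈ M, x ∈ X) →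
      (∀ x ∈ X, ∃ p : G.Walk x r, ∀ w ∈ p.support, w ∈ X) → ∀ v ∉ X,
      (∀ (_ : Fintype G.Dart) (_ : DecidableEq V) (z : G.Dart → ZMod 2),
        (∀ d : G.Dart, z d.symm = z d) → (∀ d : G.Dart, z d ≠ 0 → d.fst ∈ compSet G X v) →
        (∀ v, ∑ d : G.Dart, (if d.fst = v then z d else 0) = 0) →
        ∃ u : G.Dart → ZMod 2, (∀ d, u (faceNext σ d) = u d) ∧ ∀ d, z d = u d + u d.symm) →
      DistortionLE (G.induce (compSet G X v)) C) :
    DistortionLE G (10000000 * (C + Real.log (g + M.card + 2))) := by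
  intro ℓ hℓ
  have hd := pathDist_isMet hc hℓ
  have hC0 : 0 < C := by linarith
  obtain ⟨Ω, m, μ, f, hf⟩ := pointed_embeds
    (K := 96 * C + 112 + 100 * ((Nat.log 2 (2 * g + M.card + 1) + 1 : ℕ) : ℝ)) (by positivity) hc
    hℓ (fun H hH hHl => genus_step_set hc hℓ hH hHl hσ r M (by positivity)
      fun X hrX hMX hX v hv hz H' hH' hHl' => pointed_leaf hC0 (comp_connected hv)
        (induce_pos hℓ _) hH' hHl' (h X hrX hMX hX v hv hz))
  exact ⟨Ω, m, μ, f, fun x y => ⟨(hf x y).1, (hf x y).2.trans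
    (mul_le_mul_of_nonneg_right (set_const hC g M.card) (hd.nonneg x y))⟩⟩

/-- **Face covers**: a graph of Euler genus `g` all of whose vertices are within `k` face hops of
one of `m` faces has `c₁ ≤ O(k + log(g + m))`. -/
theorem comb_faces : ∃ A : ℝ, ∀ (g k : ℕ) (V : Type) [Finite V] (G : SimpleGraph V),
    G.Connected → ∀ σ, SurfMap g G σ → ∀ D : Finset G.Dart,
      (∀ v, ∃ d ∈ D, v ∈ hop σ d k) →
      DistortionLE G (A * (k + Real.log (g + D.card + 2))) := by
  classical
  refine ⟨10 ^ 14, fun g k V _ G hc σ hσ D h => ?_⟩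
  have hk0 : (0 : ℝ) ≤ k := Nat.cast_nonneg k
  obtain ⟨r⟩ := hc.nonempty
  have hMD : (D.image fun d => d.fst).card ≤ D.card := Finset.card_image_le
  refine (genus_gen_set hc hσ r (D.image fun d => d.fst)
    (C := 3328000 * (1 + ((k + 1 : ℕ) : ℝ)))
    (by push_cast; linarith) fun X hr hM hX v hv hz => ?_).mono ?_
  · have hK := comp_connected (G := G) hv
    by_cases hne : Nonempty (G.induce (compSet G X v)).Dart
    swap
    · have := subsingleton_of_no_dart hK hne
      exact distortion_subsingleton _ hK.nonempty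
    have hcl : ∀ x ∈ compSet G X v, ∀ b, G.Adj x b → b ∉ X → b ∈ compSet G X v :=
      fun x hx b hb hb' => comp_closed hx hb hb'
    obtain ⟨f, hf⟩ := mergeStmt V G σ hσ.fst hσ.cyc _ hK hne hz X (conn_of_walks hr hX)
      (Set.disjoint_left.2 fun x hx => ReachOff.right hx) hcl
    have hpl : PlaneMap (G.induce (compSet G X v)) (indRot σ _) := by
      refine SurfMap.plane hK ⟨indRot_fst hσ.fst, fun a b hab => ?_, ?_⟩
      · exact retPerm_sameCycle σ upDart_injective (hσ.cyc _ _ (congrArg Subtype.val hab))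
      · rw [add_zero]
        exact induced_euler hK hne hz
    exact planar_distortion (k + 1) le_rfl _ _ hK (peel_hop mergeStmt 1 k _ _ hK _ hpl f
      fun x => by
        obtain ⟨d, hdD, hd⟩ := h x.1
        exact hop_ind hσ.fst hcl hf ⟨d, Equiv.Perm.SameCycle.refl _ _,
          hM _ (Finset.mem_image_of_mem _ hdD)⟩ k x.1 x.2 hd)
  · have hg : (0 : ℝ) ≤ g := Nat.cast_nonneg g
    have hm : (0 : ℝ) ≤ D.card := Nat.cast_nonneg _
    have hL : (0.69 : ℝ) < Real.log ((g : ℝ) + D.card + 2) := by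
      have h1 := Real.log_two_gt_d9
      have h2 : Real.log 2 ≤ Real.log ((g : ℝ) + D.card + 2) :=
        Real.log_le_log (by norm_num) (by linarith)
      linarith
    have hle : Real.log ((g : ℝ) + (D.image fun d => d.fst).card + 2) ≤
        Real.log ((g : ℝ) + D.card + 2) := by
      have h5 : (((D.image fun d => d.fst).card : ℕ) : ℝ) ≤ (D.card : ℝ) := by exact_mod_cast hMD
      have h6 : (0 : ℝ) ≤ ((D.image fun d => d.fst).card : ℝ) := Nat.cast_nonneg _
      exact Real.log_le_log (by linarith) (by linarith)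
    push_cast at hle ⊢
    nlinarith

end Vale.Agent.P235.H536
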