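import Vale.Agent.P235.H105.Comb
import Vale.Agent.P235.H536.Faces

/-!
# Surfaces: face hops from `m` faces and the genus
-/

namespace Vale.Agent.P235.H536

open SimpleGraph H206

attribute [local instance] finite_dart

/-- **Face hops and the genus, `m` faces.** Let `σ` be a rotation system of Euler genus at most `g`
and `D` a set of `m` darts (faces). If all plane connected induced subgraphs which have no vertex
within `k` face hops of one of the faces have `c₁ ≤ C`, then `c₁(G) ≤ O(C + k + log (g + m))`. -/
theorem comb_distortion_faces (g k : ℕ) {C : ℝ} (hC : 1 ≤ C) (V : Type) [Finite V]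
    (G : SimpleGraph V) (hc : G.Connected) (σ : Equiv.Perm G.Dart) (hσ : SurfMap g G σ)
    (D : Finset G.Dart)
    (h : ∀ S : Set V, (∀ v ∈ S, ∀ d ∈ D, v ∉ hop σ d k) → (G.induce S).Connected →
      (∃ τ, SurfMap 0 (G.induce S) τ) → DistortionLE (G.induce S) C) :
    DistortionLE G (10000000 * (C + k + Real.log (g + D.card + 2))) := by
  classical
  intro ℓ hℓ
  have hd := pathDist_isMet hc hℓ
  have hC0 : 0 < C := by linarith
  have hk0 : (0 : ℝ) ≤ k := Nat.cast_nonneg k
  obtain ⟨r⟩ := hc.nonempty
  set M : Finset V := D.image fun d => d.fst with hMdef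
  obtain ⟨Ω, m, μ, f, hf⟩ := pointed_embeds
    (K := 96 * C + 112 + 2 * ((k + 1 : ℕ) : ℝ) +
      100 * ((Nat.log 2 (2 * g + M.card + 1) + 1 : ℕ) : ℝ))
    (by positivity) hc hℓ
    (fun H hH hHl => genus_step_set hc hℓ hH hHl hσ r M (by positivity)
      fun X hr hM hX v hv hz H' hH' hHl' => by
        have hK := comp_connected (G := G) hv
        by_cases hne : Nonempty (G.induce (compSet G X v)).Dart
        swap
        · have := subsingleton_of_no_dart hK hne
          exact pointed_mono (induce_pos hℓ _) hH' (by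
            have : (0 : ℝ) ≤ ((k + 1 : ℕ) : ℝ) := Nat.cast_nonneg _
            linarith)
            (pointed_leaf hC0 hK (induce_pos hℓ _) hH' hHl' (distortion_single hK C))
        have hcl : ∀ x ∈ compSet G X v, ∀ b, G.Adj x b → b ∉ X → b ∈ compSet G X v :=
          fun x hx b hb hb' => comp_closed hx hb hb'
        obtain ⟨f, hf⟩ := H536.mergeStmt V G σ hσ.fst hσ.cyc _ hK hne hz _ (conn_of_walks hr hX)
          (Set.disjoint_left.2 fun x hx => ReachOff.right hx) hcl
        have hpl : PlaneMap (G.induce (compSet G X v)) (indRot σ _) := by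
          refine SurfMap.plane hK ⟨indRot_fst hσ.fst, fun a b hab => ?_, ?_⟩
          · exact retPerm_sameCycle σ upDart_injective (hσ.cyc _ _ (congrArg Subtype.val hab))
          · rw [add_zero]
            exact induced_euler hK hne hz
        refine hop_pointed hC0 k _ _ hK _ hpl f (fun T hT hTc => ?_) _ (induce_pos hℓ _) H' hH' hHl'
        have h1 : (G.induce (Subtype.val '' T)).Connected := (induceIso T).connected_iff.1 hTc
        refine DistortionLE.iso (induceIso T).symm h1 ?_
        by_cases hne' : Nonempty (G.induce (Subtype.val '' T)).Dart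
        swap
        · have := subsingleton_of_no_dart h1 hne'
          exact distortion_single h1 C
        refine h _ ?_ h1 (induced_surf hσ.fst hσ.cyc h1 hne' fun i1 i2 z hz1 hz2 hz3 =>
          hz i1 i2 z hz1 (fun d hd => ?_) hz3)
        · rintro _ ⟨x, hx, rfl⟩ d hdD hh
          exact hT x hx (hop_ind hσ.fst hcl hf
            ⟨d, Equiv.Perm.SameCycle.refl _ _, hM _ (Finset.mem_image_of_mem _ hdD)⟩ k x.1 x.2 hh)
        · obtain ⟨x, _, hx⟩ := hz2 d hd
          rw [← hx]
          exact x.2)
  refine ⟨Ω, m, μ, f, fun x y => ⟨(hf x y).1, (hf x y).2.trans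
    (mul_le_mul_of_nonneg_right ?_ (hd.nonneg x y))⟩⟩
  have hg : (0 : ℝ) ≤ g := Nat.cast_nonneg g
  have hm : (0 : ℝ) ≤ M.card := Nat.cast_nonneg _
  have h1 := log_add_two (2 * g + M.card + 1)
  have h2 : Real.log (((2 * g + M.card + 1 : ℕ) : ℝ) + 2) ≤ 2 * Real.log (g + M.card + 2) := by
    rw [← Real.log_rpow (by linarith)]
    apply Real.log_le_log (by positivity)
    push_cast
    norm_num
    nlinarith [mul_nonneg hg hm]
  have h5 : (M.card : ℝ) ≤ (D.card : ℝ) := by
    exact_mod_cast (Finset.card_image_le : M.card ≤ D.card)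
  have h6 : Real.log ((g : ℝ) + M.card + 2) ≤ Real.log ((g : ℝ) + D.card + 2) :=
    Real.log_le_log (by linarith) (by linarith)
  have h3 : 0 ≤ Real.log ((g : ℝ) + M.card + 2) := Real.log_nonneg (by linarith)
  have h4 : ((k + 1 : ℕ) : ℝ) = k + 1 := by push_cast; ring
  rw [h4]
  linarith

end Vale.Agent.P235.H536
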