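import Vale.Agent.P235.Comp.Defs

namespace Vale.Agent.P235

/-- The face permutation of a rotation system `σ`: after the dart `d` from `u` to `v` comes the
dart which follows the dart from `v` to `u` in the rotation at `v`. -/
def faceNext {V : Type} {G : SimpleGraph V} (σ : Equiv.Perm G.Dart) : Equiv.Perm G.Dart :=
  (SimpleGraph.Dart.symm_involutive.toPerm _).trans σ

/-- `σ` is a plane rotation system of the connected graph `G`: it permutes the darts (directed
edges) starting at any vertex cyclically, and the number of faces (cycles of `faceNext σ`) satisfies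
Euler's formula `|V| - |E| + |faces| = 2`. -/
structure PlaneMap {V : Type} (G : SimpleGraph V) (σ : Equiv.Perm G.Dart) : Prop where
  fst : ∀ d, (σ d).fst = d.fst
  cyc : ∀ d d' : G.Dart, d.fst = d'.fst → σ.SameCycle d d'
  euler : Nat.card V + Nat.card (Quotient (Equiv.Perm.SameCycle.setoid (faceNext σ))) =
    Nat.card G.edgeSet + 2

/-- the vertices on the boundary of the face of the dart `d` -/
def onFace {V : Type} {G : SimpleGraph V} (σ : Equiv.Perm G.Dart) (d : G.Dart) : Set V :=
  {v | ∃ d' : G.Dart, (faceNext σ).SameCycle d d' ∧ d'.fst = v}

/-- `PlanarPeel C k G`: at most `k` rounds leave components with `c₁ ≤ C`; one round deletes from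
every component all vertices on the boundary of one face of a plane rotation system of this
component (for example of the outer face of a drawing). -/
inductive PlanarPeel (C : ℝ) : ℕ → ∀ {V : Type}, SimpleGraph V → Prop
  | leaf {k : ℕ} {V : Type} {G : SimpleGraph V} : DistortionLE G C → PlanarPeel C k G
  | face {k : ℕ} {V : Type} {G : SimpleGraph V} (σ : Equiv.Perm G.Dart) (d : G.Dart) :
      PlaneMap G σ →
      (∀ u ∉ onFace σ d, PlanarPeel C k (G.induce (compSet G (onFace σ d) u))) →
      PlanarPeel C (k + 1) G

end Vale.Agent.P235
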