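import Vale.Agent.P235.H105.Induced
import Vale.Agent.P235.H536.PlaneDefs

/-!
# The face of an induced plane map which contains a deleted connected set
-/

namespace Vale.Agent.P235.H536

open SimpleGraph Finset

/-- the cycles modulo two supported in `S` are sums of faces of `σ` -/
def CycIn {V : Type} {G : SimpleGraph V} (σ : Equiv.Perm G.Dart) (S : Set V) : Prop :=
  ∀ (_ : Fintype G.Dart) (_ : DecidableEq V) (z : G.Dart → ZMod 2),
    (∀ d : G.Dart, z d.symm = z d) → (∀ d : G.Dart, z d ≠ 0 → d.fst ∈ S) →
    (∀ v, ∑ d : G.Dart, (if d.fst = v then z d else 0) = 0) →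
    ∃ u : G.Dart → ZMod 2, (∀ d, u (faceNext σ d) = u d) ∧ ∀ d, z d = u d + u d.symm

/-- `b` is the first dart inside `S` after the dart `d` -/
def First {V : Type} {G : SimpleGraph V} (σ : Equiv.Perm G.Dart) (S : Set V) (d : G.Dart)
    (b : (G.induce S).Dart) : Prop :=
  ∃ n : ℕ, (σ ^ n) d = upDart b ∧ ∀ j < n, (σ ^ j) d ∉ Set.range (upDart (G := G) (S := S))

section

variable {V : Type} {G : SimpleGraph V} {S : Set V} {σ : Equiv.Perm G.Dart}

attribute [local instance] finite_dart

theorem ext_u [Finite V] (hz : CycIn σ S) (_i1 : Fintype (G.induce S).Dart) (_i2 : DecidableEq S)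
    (z' : (G.induce S).Dart → ZMod 2) (hz' : ∀ a, z' a.symm = z' a)
    (hv' : ∀ v, ∑ a : (G.induce S).Dart with a.fst = v, z' a = 0) :
    ∃ u : G.Dart → ZMod 2, (∀ d, u (faceNext σ d) = u d) ∧
      (∀ d : G.Dart, d ∉ Set.range (upDart (G := G) (S := S)) → u d.symm = u d) ∧
      ∀ a, z' a = u (upDart a) + u (upDart a).symm := by
  classical
  have := Fintype.ofFinite V
  have := Fintype.ofFinite G.Dart
  have h1 : ∀ v, ∑ d : G.Dart, (if d.fst = v then extDart z' d else 0) = 0 := by
    intro v
    have h2 : ∑ a : (G.induce S).Dart, (if a.fst.1 = v then z' a else 0) =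
        ∑ d : G.Dart, (if d.fst = v then extDart z' d else 0) := by
      refine Finset.sum_of_injOn upDart upDart_injective.injOn
        (fun _ _ => Finset.mem_coe.2 (Finset.mem_univ _)) ?_ ?_
      · intro d _ hd
        rw [Finset.coe_univ, Set.image_univ] at hd
        rw [extDart_out z' hd, ite_self]
      · intro a _
        rw [extDart_up, upDart_fst]
    rw [← h2]
    by_cases hv : v ∈ S
    · refine Eq.trans ?_ (hv' ⟨v, hv⟩)
      rw [Finset.sum_filter]
      refine Finset.sum_congr rfl fun a _ => ?_
      have h3 : (a.fst.1 = v) = (a.fst = ⟨v, hv⟩) :=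
        propext ⟨fun h => Subtype.ext h, fun h => congrArg Subtype.val h⟩
      simp only [h3]
    · refine Finset.sum_eq_zero fun a _ => if_neg ?_
      rintro rfl
      exact hv a.fst.2
  obtain ⟨u, hu, hzu⟩ := hz inferInstance inferInstance (extDart z') (fun d => by
      by_cases h : d ∈ Set.range (upDart (G := G) (S := S))
      · obtain ⟨a, rfl⟩ := h
        rw [← upDart_symm, extDart_up, extDart_up, hz']
      · have h2 : d.symm ∉ Set.range (upDart (G := G) (S := S)) := by
          rw [mem_range_upDart] at h ⊢
          exact fun h3 => h ⟨h3.2, h3.1⟩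
        rw [extDart_out _ h, extDart_out _ h2]) (fun d hd => by
      by_contra h
      refine hd (extDart_out _ ?_)
      rw [mem_range_upDart]
      exact fun h3 => h h3.1) h1
  refine ⟨u, hu, fun d hd => ?_, fun a => ?_⟩
  · have h2 := hzu d
    rw [extDart_out _ hd] at h2
    exact (CharTwo.add_eq_zero.1 h2.symm).symm
  · rw [← hzu, extDart_up]

variable (fst : ∀ d, (σ d).fst = d.fst)
  (cyc : ∀ d d' : G.Dart, d.fst = d'.fst → σ.SameCycle d d')

include fst cyc

/-- a face function without jumps outside `S` is constant along walks outside `S` -/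
theorem const_out [Finite V] {u : G.Dart → ZMod 2} (hu : ∀ d, u (faceNext σ d) = u d)
    (hout : ∀ d : G.Dart, d ∉ Set.range (upDart (G := G) (S := S)) → u d.symm = u d) {x y : V}
    (p : G.Walk x y) (hp : ∀ w ∈ p.support, w ∉ S) {d e : G.Dart} (hd : d.fst = x)
    (he : e.fst = y) : u d = u e := by
  have h1 : ∀ d : G.Dart, u (σ d) = u d.symm := fun d => by
    have h := hu d.symm
    rwa [faceNext_apply, Dart.symm_symm] at h
  have hr : ∀ d : G.Dart, d.fst ∉ S → d ∉ Set.range (upDart (G := G) (S := S)) := fun d hd h => by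
    rw [mem_range_upDart] at h
    exact hd h.1
  have hv : ∀ d e : G.Dart, d.fst = e.fst → d.fst ∉ S → u d = u e := by
    intro d e hde hdS
    obtain ⟨n, -, hn⟩ := (cyc d e hde).exists_pow_eq'
    rw [← hn]
    clear hn
    induction n with
    | zero => rfl
    | succ n ih =>
      rw [pow_succ', Equiv.Perm.mul_apply, h1, hout _ (hr _ (by rwa [pow_fst fst])), ← ih]
  induction p generalizing d with
  | nil => exact hv d e (hd.trans he.symm) (by rw [hd]; exact hp _ (by simp))
  | @cons a b c hab q ih =>
    have ha : a ∉ S := hp a (by simp)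
    have h3 : u d = u (⟨(a, b), hab⟩ : G.Dart) := hv _ _ hd (by rwa [hd])
    rw [h3, ← hout _ (hr _ ha)]
    exact ih (fun w hw => hp w (by simp [hw])) rfl he

/-- **All darts which leave `S` towards one connected set give the same face of the induced map.** -/
theorem merge [Finite V] (hS : (G.induce S).Connected) (hz : CycIn σ S) {d d' : G.Dart}
    {b b' : (G.induce S).Dart} (h1 : d.snd ∉ S) (h2 : d'.snd ∉ S)
    (hX : ∃ p : G.Walk d.snd d'.snd, ∀ w ∈ p.support, w ∉ S)
    (hb : First σ S d b) (hb' : First σ S d' b') : (faceNext (indRot σ S)).SameCycle b b' := by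
  classical
  have := Fintype.ofFinite V
  have := Fintype.ofFinite (G.induce S).Dart
  let ind : (G.induce S).Dart → ZMod 2 := fun a =>
    if (faceNext (indRot σ S)).SameCycle b a then 1 else 0
  have hind : ∀ a, ind (faceNext (indRot σ S) a) = ind a := fun a => by
    simp only [ind, Equiv.Perm.sameCycle_apply_right]
  have hind' : ∀ a : (G.induce S).Dart, ind (indRot σ S a) = ind a.symm := fun a => by
    have := hind a.symm
    rwa [faceNext_apply, Dart.symm_symm] at this
  obtain ⟨u, hu, hout, hzu⟩ := ext_u hz inferInstance inferInstance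
    (fun a => ind a + ind a.symm) (fun a => by rw [Dart.symm_symm, add_comm]) (fun v => by
      rw [Finset.sum_add_distrib]
      have e1 : (∑ a : (G.induce S).Dart with a.fst = v, ind a.symm) =
          ∑ a : (G.induce S).Dart with a.fst = v, ind a := by
        refine Finset.sum_bij (fun (a : (G.induce S).Dart) _ => indRot σ S a) ?_ ?_ ?_ ?_
        · intro a ha
          rw [Finset.mem_filter] at ha ⊢
          exact ⟨Finset.mem_univ _, (indRot_fst fst a).trans ha.2⟩
        · intro a _ c _ hac
          exact (indRot σ S).injective hac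
        · intro c hc
          rw [Finset.mem_filter] at hc
          refine ⟨(indRot σ S)⁻¹ c, ?_, Equiv.apply_symm_apply _ _⟩
          rw [Finset.mem_filter]
          refine ⟨Finset.mem_univ _, ?_⟩
          rw [← indRot_fst fst, show indRot σ S ((indRot σ S)⁻¹ c) = c from
            Equiv.apply_symm_apply _ _]
          exact hc.2
        · intro a _
          exact (hind' a).symm
      rw [e1, CharTwo.add_self_eq_zero])
  have hfirst : ∀ (d : G.Dart) (b : (G.induce S).Dart), d.snd ∉ S → First σ S d b →
      u (upDart b) = u d := by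
    rintro d b hd ⟨n, hn, hj⟩
    rw [← hn]
    clear hn
    induction n with
    | zero => rfl
    | succ n ih =>
      have h3 : ∀ d : G.Dart, u (σ d) = u d.symm := fun d => by
        have h := hu d.symm
        rwa [faceNext_apply, Dart.symm_symm] at h
      rw [pow_succ', Equiv.Perm.mul_apply, h3, hout _ (hj n (Nat.lt_succ_self n)),
        ih fun j h => hj j (h.trans (Nat.lt_succ_self n))]
  have hdo : ∀ d : G.Dart, d.snd ∉ S → u d = u d.symm := fun d hd =>
    (hout d (by rw [mem_range_upDart]; exact fun h => hd h.2)).symm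
  have hbb : u (upDart b) = u (upDart b') := by
    obtain ⟨p, hp⟩ := hX
    rw [hfirst d b h1 hb, hfirst d' b' h2 hb', hdo d h1, hdo d' h2]
    exact const_out fst cyc hu hout p hp rfl rfl
  have hconst := const_of_inv (σ := indRot σ S) hS
    (fun a c hac => retPerm_sameCycle σ upDart_injective (cyc _ _ (congrArg Subtype.val hac)))
    (fun a => u (upDart a) + ind a) (fun a => by
      rw [hind a]
      congr 1
      show u (upDart (indRot σ S a.symm)) = _
      rw [indRot_const hu hout, upDart_symm, Dart.symm_symm]) (fun a => by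
      have h3 := hzu a
      rw [upDart_symm]
      have h4 : ∀ x y z w : ZMod 2, x + y = z + w → w + y = z + x := by decide
      exact h4 _ _ _ _ h3) b b'
  simp only [hbb, add_right_inj] at hconst
  have hb1 : ind b = 1 := if_pos (Equiv.Perm.SameCycle.refl _ _)
  rw [hb1] at hconst
  by_contra hne
  have : ind b' = 0 := if_neg hne
  rw [this] at hconst
  exact one_ne_zero hconst

end

end Vale.Agent.P235.H536
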