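import Vale.Agent.P235.Defs

namespace Vale.Agent.P235

/-- The oscillation distance of `u`: the least oscillation `max u - min u` of `u` on a walk from
`x` to `y`. -/
noncomputable def oscDist {V : Type} (G : SimpleGraph V) (u : V → ℝ) (x y : V) : ℝ :=
  sInf {r | ∃ w : G.Walk x y, ∀ a ∈ w.support, ∀ b ∈ w.support, |u a - u b| ≤ r}

/-- There are finitely many functions `u i` on the vertices with `∑ |u i x - u i y| ≤ ℓ(xy)` on
the edges whose oscillation distances add up to at least `d / C`, `d` the path metric. -/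
def OscEmb {V : Type} (G : SimpleGraph V) (ℓ : Sym2 V → ℝ) (C : ℝ) : Prop :=
  ∃ (n : ℕ) (u : Fin n → V → ℝ), (∀ x y, G.Adj x y → ∑ i, |u i x - u i y| ≤ ℓ s(x, y)) ∧
    ∀ x y, pathDist G ℓ x y ≤ C * ∑ i, oscDist G (u i) x y

end Vale.Agent.P235
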