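import Vale.Agent.P235.Comp.Defs

namespace Vale.Agent.P235

/-- The graphs of treewidth at most `3`, and the graphs from which at most `t` vertices can be
deleted such that the rest has pathwidth at most `w`. -/
def PieceT (w t : ℕ) (V : Type) (G : SimpleGraph V) : Prop :=
  TreewidthLE G 3 ∨ ∃ S : Finset V, S.card ≤ t ∧ PathwidthLE (G.induce {v | v ∉ S}) w

end Vale.Agent.P235
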