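import Vale.Agent.P235.H206.Final
import Vale.Agent.P235.H206.Level
import Vale.Agent.P235.H873.LineApex
import Vale.Agent.P235.H536.PieceDefs

/-!
# Pieces with a quantitative edge-exact constant: pathwidth `w` after deleting `t` vertices
-/

namespace Vale.Agent.P235

theorem PathwidthLE.comap {V W : Type} [Finite W] {G : SimpleGraph V} {G' : SimpleGraph W} {p : ℕ}
    (f : W → V) (hf : Function.Injective f) (hadj : ∀ a b, G'.Adj a b → G.Adj (f a) (f b))
    (h : PathwidthLE G p) : PathwidthLE G' p := by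
  classical
  have : Fintype W := Fintype.ofFinite W
  obtain ⟨n, B, h1, h2, h3, h4⟩ := h
  refine ⟨n, fun i => Finset.univ.filter fun a => f a ∈ B i, ?_, ?_, ?_, ?_⟩
  · intro a
    obtain ⟨i, hi⟩ := h1 (f a)
    exact ⟨i, by simpa using hi⟩
  · intro a b hab
    obtain ⟨i, hi, hi'⟩ := h2 _ _ (hadj a b hab)
    exact ⟨i, by simpa using hi, by simpa using hi'⟩
  · intro i j k hij hjk v hvi hvk
    simp only [Finset.mem_filter, Finset.mem_univ, true_and] at hvi hvk ⊢
    exact h3 i j k hij hjk (f v) hvi hvk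
  · intro i
    refine le_trans ?_ (h4 i)
    exact Finset.card_le_card_of_injOn f (fun a ha => by simpa using ha) hf.injOn

/-- the line property of a graph which has pathwidth at most `w` after deleting `S` -/
theorem lineLip_deletion {w t : ℕ} {V : Type} [Finite V] {G : SimpleGraph V} {S : Finset V}
    (hS : S.card ≤ t) (hT : PathwidthLE (G.induce {v | v ∉ S}) w) :
    LineLip G (1 / (48000 * (32000 * (w + 1) + Real.log (t + 2)))) := by
  classical
  intro ρ hρ hgen
  change LineM ρ _
  have hpos : (0 : ℝ) < 48000 * (32000 * (w + 1) + Real.log (t + 2)) := by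
    have h1 : 0 ≤ Real.log ((t : ℝ) + 2) := Real.log_nonneg (by
      have : (0 : ℝ) ≤ t := Nat.cast_nonneg t
      linarith)
    have h2 : (0 : ℝ) ≤ w := Nat.cast_nonneg w
    nlinarith
  cases isEmpty_or_nonempty V with
  | inl hV =>
    exact ⟨Unit, inferInstance, fun _ => 1, fun _ _ => 0, fun _ => zero_le_one, by simp,
      fun _ x => (hV.false x).elim, fun x => (hV.false x).elim⟩
  | inr hV =>
    have hc : G.Connected := ⟨hgen.preconnected hρ⟩
    have hℓ : ∀ e ∈ G.edgeSet, 0 < lenOf ρ hρ.symm e := by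
      intro e
      induction e using Sym2.ind with
      | _ u v =>
        intro he
        exact hρ.pos u v (SimpleGraph.Adj.ne he)
    have e := hgen.eq_pathDist hρ hc
    obtain ⟨v0⟩ := hc.nonempty
    set X : Set V := ((insert v0 S : Finset V) : Set V) with hX
    have hXcard : X.ncard ≤ t + 1 := by
      rw [hX, Set.ncard_coe_finset]
      exact (Finset.card_insert_le _ _).trans (by omega)
    have hne : X.Nonempty := ⟨v0, by rw [hX]; simp⟩
    have hSX : ∀ v ∈ S, v ∈ X := fun v hv => by rw [hX]; simp [hv]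
    have hD : (1 : ℝ) ≤ 32000 * (w + 1) := by
      have h2 : (0 : ℝ) ≤ w := Nat.cast_nonneg w
      linarith
    have h := H873.line_apex (G := G) (ℓ := lenOf ρ hρ.symm) (X := X) (D := 32000 * (w + 1)) hD hc hℓ
      hne (fun u hu => ?_)
    · rw [e] at h
      refine h.mono ?_ hρ.nonneg
      have hlog : Real.log (X.ncard + 1) ≤ Real.log (t + 2) := by
        apply Real.log_le_log (by positivity)
        have : (X.ncard : ℝ) ≤ t + 1 := by exact_mod_cast hXcard
        linarith
      have hlog0 : 0 ≤ Real.log ((X.ncard : ℝ) + 1) := Real.log_nonneg (by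
        have : (0 : ℝ) ≤ X.ncard := Nat.cast_nonneg _
        linarith)
      exact one_div_le_one_div_of_le (by positivity) (by linarith)
    · have hcc : (G.induce (compSet G X u)).Connected := comp_connected hu
      have hpos' : ∀ e ∈ (G.induce (compSet G X u)).edgeSet,
          0 < lenOf ρ hρ.symm (e.map Subtype.val) := by
        intro e
        induction e using Sym2.ind with
        | _ a b =>
          intro he
          exact hℓ _ he
      have hpw : PathwidthLE (G.induce (compSet G X u)) w := by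
        refine PathwidthLE.comap (G := G.induce {v | v ∉ S})
          (fun a : compSet G X u => ⟨a.1, fun h => ?_⟩) ?_ (fun a b h => h) hT
        · exact ReachOff.right a.2 (hSX _ h)
        · intro a b hab
          exact Subtype.ext (congrArg (fun z : {v | v ∉ S} => z.1) hab)
      exact lineLip_pathwidth_linear w _ hpw _ (pathDist_isMet hcc hpos') (fun f hf x y =>
        pathDist_gen hcc (fun a b hab => (hf a b hab).trans (pathDist_adj hpos' hab)) x y)

/-- the pieces are edge-exact with a constant of order `1 / (w + log t)` -/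
theorem pieceT_edgeExact : ∃ A : ℝ, 2 ≤ A ∧ ∀ (w t : ℕ) (V : Type) [Finite V]
    (G : SimpleGraph V), PieceT w t V G → EdgeExact G (1 / (A * (w + Real.log (t + 2)))) := by
  obtain ⟨c, hc, hc1, hT⟩ := edgeExact_treewidth
  have hc2 : 2 ≤ 2 / c := by
    rw [le_div_iff₀ hc]
    linarith
  refine ⟨2 / c + 3 * 10 ^ 9, by linarith, fun w t V _ G hG => ?_⟩
  have hw : (0 : ℝ) ≤ w := Nat.cast_nonneg w
  have hL : (0.6931471803 : ℝ) ≤ Real.log (t + 2) := by
    refine Real.log_two_gt_d9.le.trans (Real.log_le_log (by norm_num) ?_)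
    have : (0 : ℝ) ≤ t := Nat.cast_nonneg t
    linarith
  have hwL : (1 : ℝ) / 2 ≤ w + Real.log (t + 2) := by linarith
  rcases hG with hG | ⟨S, hS, hG⟩
  · refine (hT V G hG).mono ?_
    rw [div_le_iff₀ (by positivity)]
    have h1 : 1 / c ≤ (2 / c + 3 * 10 ^ 9) * (w + Real.log (t + 2)) := by
      calc 1 / c = 2 / c * (1 / 2) := by ring
        _ ≤ (2 / c + 3 * 10 ^ 9) * (w + Real.log (t + 2)) := by
            refine mul_le_mul (by linarith) hwL (by norm_num) (by positivity)
    calc (1 : ℝ) = c * (1 / c) := by field_simp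
      _ ≤ _ := mul_le_mul_of_nonneg_left h1 hc.le
  · refine ((lineLip_deletion hS hG).edgeExact).mono ?_
    refine one_div_le_one_div_of_le (by positivity) ?_
    have h2 : 0 < 2 / c := by positivity
    have h3 : 0 ≤ 2 / c * (w + Real.log (t + 2)) := by positivity
    calc (48000 : ℝ) * (32000 * (w + 1) + Real.log (t + 2))
        ≤ 3 * 10 ^ 9 * (w + Real.log (t + 2)) := by nlinarith
      _ ≤ _ := by nlinarith

/-- **edge sums of the pieces**: `c₁ ≤ A (w + log (t + 2))`, with an embedding which is isometric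
on any one prescribed edge -/
theorem edgeSum_pieceT : ∃ A : ℝ, ∀ (w t : ℕ) (V : Type) [Finite V] (G : SimpleGraph V),
    G.Connected → EdgeSumOf (PieceT w t) G →
      EdgeIso G (A * (w + Real.log (t + 2))) ∧ DistortionLE G (A * (w + Real.log (t + 2))) := by
  obtain ⟨A, hA, h⟩ := pieceT_edgeExact
  refine ⟨12000 * A, fun w t V _ G hc hE => ?_⟩
  have hw : (0 : ℝ) ≤ w := Nat.cast_nonneg w
  have hL : (0.6931471803 : ℝ) ≤ Real.log (t + 2) := by
    refine Real.log_two_gt_d9.le.trans (Real.log_le_log (by norm_num) ?_)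
    have : (0 : ℝ) ≤ t := Nat.cast_nonneg t
    linarith
  have hwL : (1 : ℝ) / 2 ≤ w + Real.log (t + 2) := by linarith
  have h1 : 1 ≤ A * (w + Real.log (t + 2)) := by nlinarith
  have h2 := edgeSum_edgeIso (PieceT w t) h1 (fun V _ G hG hP => by
    have h3 := (h w t V G hP).edgeIso (by positivity) hG
    rwa [one_div_one_div] at h3) V G hc hE
  rw [mul_assoc]
  exact h2

theorem EdgeSumOf.mono {P Q : ∀ (V : Type), SimpleGraph V → Prop}
    (hPQ : ∀ (V : Type) (G : SimpleGraph V), P V G → Q V G) {V : Type} {G : SimpleGraph V}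
    (h : EdgeSumOf P G) : EdgeSumOf Q G := by
  induction h with
  | base h => exact EdgeSumOf.base (hPQ _ _ h)
  | del _ hle ih => exact EdgeSumOf.del ih hle
  | glue h1 h2 h3 h4 _ _ ihA ihB => exact EdgeSumOf.glue h1 h2 h3 h4 ihA ihB

theorem pieceT_of_card {s : ℕ} {V : Type} [Finite V] (G : SimpleGraph V) (hs : Nat.card V ≤ s) :
    PieceT 0 s V G := by
  classical
  have := Fintype.ofFinite V
  refine Or.inr ⟨Finset.univ, ?_, ?_⟩
  · rw [Finset.card_univ, ← Nat.card_eq_fintype_card]
    exact hs
  · refine ⟨0, fun i => i.elim0, ?_, ?_, ?_, ?_⟩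
    · rintro ⟨v, hv⟩
      exact absurd (Finset.mem_univ v) hv
    · rintro ⟨v, hv⟩
      exact absurd (Finset.mem_univ v) hv
    · intro i
      exact i.elim0
    · intro i
      exact i.elim0

/-- edge sums of graphs with at most `s` vertices: `c₁ ≤ A log (s + 2)` -/
theorem edgeSum_card : ∃ A : ℝ, ∀ (s : ℕ) (V : Type) [Finite V] (G : SimpleGraph V),
    G.Connected → EdgeSumOf (fun V _ => Finite V ∧ Nat.card V ≤ s) G →
      DistortionLE G (A * Real.log (s + 2)) := by
  obtain ⟨A, h⟩ := edgeSum_pieceT
  refine ⟨A, fun s V _ G hc hE => ?_⟩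
  have h1 : EdgeSumOf (PieceT 0 s) G := hE.mono fun V G hG => by
    have := hG.1
    exact pieceT_of_card G hG.2
  have h2 := (h 0 s V G hc h1).2
  simpa using h2

end Vale.Agent.P235
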