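import Vale.Agent.P235.H536.Piece

/-!
# Apices over edge sums of pieces
-/

namespace Vale.Agent.P235

/-- the component of `G - ∅` is all of `G` -/
theorem distortion_of_empty {V : Type} [Finite V] {G : SimpleGraph V} (hc : G.Connected)
    {K : ℝ} (h : ∀ u ∉ (∅ : Set V), DistortionLE (G.induce (compSet G ∅ u)) K) :
    DistortionLE G K := by
  obtain ⟨v0⟩ := hc.nonempty
  have hv0 : v0 ∉ (∅ : Set V) := fun h => h
  have hall : ∀ v, v ∈ compSet G ∅ v0 := by
    intro v
    obtain ⟨p⟩ := hc v0 v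
    exact ⟨p, fun a _ h => h⟩
  exact (h v0 hv0).emb (fun v => (⟨v, hall v⟩ : compSet G ∅ v0))
    (fun a b hab => congrArg (fun z : compSet G ∅ v0 => z.1) hab) (fun a b hab => hab)
    (comp_connected hv0) hc

/-- `s` deleted vertices, `s = 0` allowed -/
theorem apex_log' : ∃ C : ℝ, 1 ≤ C ∧ ∀ K : ℝ, 0 ≤ K → ∀ (s : ℕ) (V : Type) [Finite V]
    (G : SimpleGraph V), G.Connected → ∀ X : Set V, X.ncard ≤ s →
    (∀ u ∉ X, DistortionLE (G.induce (compSet G X u)) K) →
    DistortionLE G (C * (K + Real.log (s + 2))) := by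
  obtain ⟨C, hC⟩ := H873.apex_log
  refine ⟨max C 1, le_max_right _ _, fun K hK s V _ G hc X hX h => ?_⟩
  have hs : (0 : ℝ) ≤ s := Nat.cast_nonneg s
  have hlogs : 0 ≤ Real.log ((s : ℝ) + 2) := Real.log_nonneg (by linarith)
  rcases X.eq_empty_or_nonempty with rfl | hne
  · refine (distortion_of_empty hc h).mono ?_
    have h1 : (1 : ℝ) ≤ max C 1 := le_max_right _ _
    nlinarith
  · refine (hC K hK V G hc X hne h).mono ?_
    have hn : (0 : ℝ) ≤ X.ncard := Nat.cast_nonneg _
    have h0 : 0 ≤ Real.log ((X.ncard : ℝ) + 1) := Real.log_nonneg (by linarith)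
    have h1 : Real.log ((X.ncard : ℝ) + 1) ≤ Real.log ((s : ℝ) + 2) := by
      apply Real.log_le_log (by positivity)
      have : (X.ncard : ℝ) ≤ s := by exact_mod_cast hX
      linarith
    calc C * (K + Real.log ((X.ncard : ℝ) + 1))
        ≤ max C 1 * (K + Real.log ((X.ncard : ℝ) + 1)) :=
          mul_le_mul_of_nonneg_right (le_max_left _ _) (by linarith)
      _ ≤ max C 1 * (K + Real.log ((s : ℝ) + 2)) :=
          mul_le_mul_of_nonneg_left (by linarith) (by positivity)

/-- **Main theorem of stage 2.**  If the components of `G - X`, `|X| ≤ s`, are edge sums of graphs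
which have treewidth at most `3`, or pathwidth at most `w` after the deletion of `t` vertices, then
`c₁(G) ≤ A (w + log (t + 2) + log (s + 2))`. -/
theorem sharp_main : ∃ A : ℝ, ∀ (w t s : ℕ) (V : Type) [Finite V] (G : SimpleGraph V),
    G.Connected → ∀ X : Set V, X.ncard ≤ s →
    (∀ u ∉ X, EdgeSumOf (PieceT w t) (G.induce (compSet G X u))) →
    DistortionLE G (A * (w + Real.log (t + 2) + Real.log (s + 2))) := by
  obtain ⟨A0, h0⟩ := edgeSum_pieceT
  obtain ⟨C, hC1, hC⟩ := apex_log'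
  refine ⟨C * (max A0 1), fun w t s V _ G hc X hX h => ?_⟩
  have hw : (0 : ℝ) ≤ w := Nat.cast_nonneg w
  have hlt : 0 ≤ Real.log ((t : ℝ) + 2) := Real.log_nonneg (by
    have : (0 : ℝ) ≤ t := Nat.cast_nonneg t
    linarith)
  have hls : 0 ≤ Real.log ((s : ℝ) + 2) := Real.log_nonneg (by
    have : (0 : ℝ) ≤ s := Nat.cast_nonneg s
    linarith)
  have h1A : (1 : ℝ) ≤ max A0 1 := le_max_right _ _
  have hK : 0 ≤ max A0 1 * (w + Real.log (t + 2)) := by positivity
  have h1 := hC (max A0 1 * (w + Real.log (t + 2))) hK s V G hc X hX (fun u hu => by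
    refine ((h0 w t _ _ (comp_connected hu) (h u hu)).2).mono ?_
    exact mul_le_mul_of_nonneg_right (le_max_left _ _) (by linarith))
  refine h1.mono ?_
  rw [mul_assoc]
  refine mul_le_mul_of_nonneg_left ?_ (by linarith)
  nlinarith

end Vale.Agent.P235
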